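import Mathlib

/-!
# P217: invariant ideals of polynomial and Laurent polynomial rings
-/

namespace Vale.Agent.N217X

open Polynomial

section Poly

variable {A K ι : Type*} [CommRing A] [IsDomain A] [CommRing K]

theorem core (ψ : ι → A →+* A) (t : ι → A) (ht : ∀ j, IsUnit (t j)) (κ : K →+* A) {a : A}
    (ha : a ≠ 0) (m : ℕ) (hψa : ∀ j, ψ j a = a * t j ^ m)
    (hL : ∀ L : Ideal A, L ≠ ⊥ → (∀ j, ∀ x ∈ L, ψ j x ∈ L) → ∃ N, a ^ N ∈ L)
    (hw : ∀ (x : A) (i b : ℕ), i < b → (∀ j, ψ j x * t j ^ i = x * t j ^ b) →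
      x = 0 ∨ ∃ l c, b = i + m * l ∧ x = κ c * a ^ l)
    (P : Ideal A[X]) (hP : ∀ j, ∀ G ∈ P, (G.map (ψ j)).comp (C (t j) * X) ∈ P)
    (hsat : ∀ x G, x ≠ 0 → C x * G ∈ P → G ∈ P) (h0 : P ≠ ⊥) :
    ∃ f : A[X], f.Monic ∧ P = Ideal.span {f} ∧ ∀ i < f.natDegree,
      f.coeff i = 0 ∨ ∃ l c, f.natDegree = i + m * l ∧ f.coeff i = κ c * a ^ l := by
  classical
  have hex : ∃ d, ∃ G ∈ P, G ≠ 0 ∧ G.natDegree = d := by
    obtain ⟨G, h1, h2⟩ := (Submodule.ne_bot_iff P).1 h0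
    exact ⟨_, G, h1, h2, rfl⟩
  set d := Nat.find hex with hd
  have hmin : ∀ G ∈ P, (∀ i, d ≤ i → G.coeff i = 0) → G = 0 := by
    intro G hG h
    by_contra hne
    have h1 : d ≤ G.natDegree := Nat.find_min' hex ⟨G, hG, hne, rfl⟩
    exact hne (leadingCoeff_eq_zero.1 (h _ h1))
  have hc : ∀ j (G : A[X]) i, ((G.map (ψ j)).comp (C (t j) * X)).coeff i =
      ψ j (G.coeff i) * t j ^ i := fun j G i => by rw [comp_C_mul_X_coeff, coeff_map]
  let L : Ideal A :=
    { carrier := {x | ∃ G ∈ P, (∀ i, d < i → G.coeff i = 0) ∧ G.coeff d = x}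
      zero_mem' := ⟨0, P.zero_mem, fun _ _ => rfl, rfl⟩
      add_mem' := by
        rintro _ _ ⟨G, h1, h2, rfl⟩ ⟨G', h3, h4, rfl⟩
        exact ⟨G + G', P.add_mem h1 h3, fun i hi => by rw [coeff_add, h2 i hi, h4 i hi, add_zero],
          coeff_add _ _ _⟩
      smul_mem' := by
        rintro c _ ⟨G, h1, h2, rfl⟩
        exact ⟨C c * G, P.mul_mem_left _ h1, fun i hi => by rw [coeff_C_mul, h2 i hi, mul_zero],
          coeff_C_mul _⟩ }
  obtain ⟨N, G, hG, hG1, hG2⟩ : ∃ N, a ^ N ∈ L := by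
    refine hL L ?_ ?_
    · obtain ⟨G, h1, h2, h3⟩ := Nat.find_spec hex
      rw [Submodule.ne_bot_iff]
      refine ⟨G.coeff d, ⟨G, h1, fun i hi => coeff_eq_zero_of_natDegree_lt (by omega), rfl⟩, ?_⟩
      rw [hd, ← h3]
      exact leadingCoeff_ne_zero.2 h2
    · rintro j _ ⟨G, h1, h2, rfl⟩
      rw [← Ideal.mul_unit_mem_iff_mem _ ((ht j).pow d)]
      exact ⟨_, hP j G h1, fun i hi => by rw [hc, h2 i hi, map_zero, zero_mul], hc j G d⟩
  have hwt : ∀ i j, ψ j (G.coeff i) * t j ^ i = G.coeff i * t j ^ (m * N + d) := by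
    intro i j
    have h1 := hmin _ (P.sub_mem (hP j G hG) (P.mul_mem_left (C (t j ^ (m * N + d))) hG)) (by
      intro i hi
      rw [coeff_sub, hc, coeff_C_mul]
      rcases hi.eq_or_lt with rfl | hi
      · rw [hG2, map_pow, hψa]
        ring
      · rw [hG1 i hi, map_zero, zero_mul, mul_zero, sub_zero])
    have h2 := congrArg (fun q : A[X] => q.coeff i) h1
    simp only [coeff_sub, hc, coeff_C_mul, coeff_zero] at h2
    rw [sub_eq_zero.1 h2, mul_comm]
  have hco : ∀ i < d, G.coeff i = 0 ∨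
      ∃ l c, d = i + m * l ∧ G.coeff i = a ^ N * (κ c * a ^ l) := by
    intro i hi
    rcases hw _ i (m * N + d) (by omega) (hwt i) with h | ⟨l, c, h1, h2⟩
    · exact Or.inl h
    have h3 : N ≤ l := by
      by_contra h4
      have := Nat.mul_le_mul_left m (not_le.1 h4).le
      omega
    obtain ⟨l', rfl⟩ := Nat.exists_eq_add_of_le h3
    refine Or.inr ⟨l', c, ?_, by rw [h2]; ring⟩
    rw [mul_add] at h1
    omega
  obtain ⟨f, hf⟩ : C (a ^ N) ∣ G := by
    rw [C_dvd_iff_dvd_coeff]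
    intro i
    rcases lt_trichotomy i d with h | rfl | h
    · rcases hco i h with h1 | ⟨l, c, -, h1⟩
      · rw [h1]
        exact dvd_zero _
      · exact ⟨_, h1⟩
    · rw [hG2]
    · rw [hG1 i h]
      exact dvd_zero _
  have haN : a ^ N ≠ 0 := pow_ne_zero _ ha
  have hfc : ∀ i, G.coeff i = a ^ N * f.coeff i := fun i => by rw [hf, coeff_C_mul]
  have hfP : f ∈ P := hsat _ _ haN (hf ▸ hG)
  have hf1 : f.coeff d = 1 := mul_left_cancel₀ haN (by rw [← hfc, hG2, mul_one])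
  have hf2 : f.natDegree ≤ d := natDegree_le_iff_coeff_eq_zero.2 fun i hi =>
    mul_left_cancel₀ haN (by rw [← hfc, hG1 i hi, mul_zero])
  have hmon : f.Monic := monic_of_natDegree_le_of_coeff_eq_one d hf2 hf1
  have hdeg : f.natDegree = d :=
    natDegree_eq_of_le_of_coeff_ne_zero hf2 (by rw [hf1]; exact one_ne_zero)
  refine ⟨f, hmon, le_antisymm (fun H hH => ?_) ((Ideal.span_singleton_le_iff_mem _).2 hfP), ?_⟩
  · rw [Ideal.mem_span_singleton, ← modByMonic_eq_zero_iff_dvd hmon]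
    refine hmin _ ?_ fun i hi => coeff_eq_zero_of_degree_lt ?_
    · rw [modByMonic_eq_sub_mul_div]
      exact P.sub_mem hH (P.mul_mem_right _ hfP)
    · refine (degree_modByMonic_lt H hmon).trans_le ?_
      rw [degree_eq_natDegree hmon.ne_zero, hdeg]
      exact_mod_cast hi
  · rw [hdeg]
    intro i hi
    rcases hco i hi with h | ⟨l, c, h1, h2⟩
    · exact Or.inl (mul_left_cancel₀ haN (by rw [← hfc, h, mul_zero]))
    · exact Or.inr ⟨l, c, h1, mul_left_cancel₀ haN (by rw [← hfc, h2])⟩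

end Poly

section Laurent

open LaurentPolynomial (T isUnit_T T_add T_zero T_pow exists_T_pow)

variable {R S : Type*} [CommRing R] [CommRing S]

/-- `Ψ` extends `ψ` and multiplies `u` by `t`. -/
def Tw (ψ : R →+* S) (t : S) (Ψ : LaurentPolynomial R →+* LaurentPolynomial S) : Prop :=
  (∀ x, Ψ (LaurentPolynomial.C x) = LaurentPolynomial.C (ψ x)) ∧
    Ψ (T 1) = LaurentPolynomial.C t * T 1

theorem exists_tw (ψ : R →+* S) {t : S} (ht : IsUnit t) : ∃ Ψ, Tw ψ t Ψ := by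
  obtain ⟨y, hy⟩ := (ht.map (LaurentPolynomial.C : S →+* LaurentPolynomial S)).mul (isUnit_T 1)
  refine ⟨LaurentPolynomial.eval₂ (LaurentPolynomial.C.comp ψ) y, fun x => ?_, ?_⟩
  · rw [LaurentPolynomial.eval₂_C, RingHom.comp_apply]
  · rw [LaurentPolynomial.eval₂_T, zpow_one, hy]

theorem lau_ext {Ψ Ψ' : LaurentPolynomial R →+* S}
    (h1 : ∀ x, Ψ (LaurentPolynomial.C x) = Ψ' (LaurentPolynomial.C x))
    (h2 : Ψ (T 1) = Ψ' (T 1)) : Ψ = Ψ' := by
  refine IsLocalization.ringHom_ext (Submonoid.powers (X : R[X])) ?_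
  refine Polynomial.ringHom_ext (fun x => ?_) ?_
  · simpa using h1 x
  · simpa using h2

theorem Tw.poly {ψ : R →+* S} {t : S} {Ψ : LaurentPolynomial R →+* LaurentPolynomial S}
    (h : Tw ψ t Ψ) (G : R[X]) :
    Ψ (toLaurent G) = toLaurent ((G.map ψ).comp (C t * X)) := by
  induction G using Polynomial.induction_on' with
  | add p q hp hq => rw [map_add, map_add, hp, hq, Polynomial.map_add, add_comp, map_add]
  | monomial n a =>
    rw [← C_mul_X_pow_eq_monomial]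
    simp only [map_mul, map_pow, toLaurent_C, toLaurent_X, h.1, h.2, Polynomial.map_mul,
      Polynomial.map_pow, map_C, map_X, mul_comp, C_comp, pow_comp, X_comp]

theorem T_neg_mul (m : ℤ) : (T (-m) : LaurentPolynomial R) * T m = 1 := by
  rw [← T_add, neg_add_cancel, T_zero]

theorem Tw.T_nat {ψ : R →+* S} {t : S} {Ψ : LaurentPolynomial R →+* LaurentPolynomial S}
    (h : Tw ψ t Ψ) (m : ℕ) : Ψ (T m) = LaurentPolynomial.C t ^ m * T m := by
  have h1 : ∀ (R : Type _) [CommRing R], (T m : LaurentPolynomial R) = T 1 ^ m := fun R _ => by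
    rw [T_pow, mul_one]
  have h2 : (T m : LaurentPolynomial S) = T 1 ^ m := by rw [T_pow, mul_one]
  rw [h1 R, h2, map_pow, h.2, mul_pow]

theorem Tw.T_neg {ψ : R →+* S} {t : S} {Ψ : LaurentPolynomial R →+* LaurentPolynomial S}
    (h : Tw ψ t Ψ) (m : ℕ) : Ψ (T (-m)) * LaurentPolynomial.C t ^ m = T (-m) := by
  have h1 := congrArg Ψ (T_neg_mul (R := R) m)
  rw [map_mul, map_one, h.T_nat] at h1
  have h2 := T_neg_mul (R := S) m
  linear_combination T (-(m : ℤ)) * h1 - (Ψ (T (-m)) * LaurentPolynomial.C t ^ m) * h2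

theorem Tw.comp {U : Type*} [CommRing U] {ψ : R →+* S} {t : S} {ψ' : S →+* U} {t' : U}
    {Ψ : LaurentPolynomial R →+* LaurentPolynomial S}
    {Ψ' : LaurentPolynomial S →+* LaurentPolynomial U} (h : Tw ψ t Ψ) (h' : Tw ψ' t' Ψ') :
    Tw (ψ'.comp ψ) (ψ' t * t') (Ψ'.comp Ψ) := by
  refine ⟨fun x => ?_, ?_⟩
  · rw [RingHom.comp_apply, h.1, h'.1, RingHom.comp_apply]
  · rw [RingHom.comp_apply, h.2, map_mul, h'.1, h'.2, map_mul, mul_assoc]

theorem Tw.unique {ψ : R →+* S} {t : S} {Ψ Ψ' : LaurentPolynomial R →+* LaurentPolynomial S}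
    (h : Tw ψ t Ψ) (h' : Tw ψ t Ψ') : Ψ = Ψ' :=
  lau_ext (fun x => (h.1 x).trans (h'.1 x).symm) (h.2.trans h'.2.symm)

theorem tw_id : Tw (RingHom.id R) 1 (RingHom.id _) :=
  ⟨fun _ => rfl, by rw [map_one, one_mul]; rfl⟩

theorem Tw.surj {π : R →+* S} {Ψ : LaurentPolynomial R →+* LaurentPolynomial S}
    (h : Tw π 1 Ψ) (hs : Function.Surjective π) : Function.Surjective Ψ := by
  intro y
  obtain ⟨k, G, hG⟩ := exists_T_pow y
  obtain ⟨G', rfl⟩ := Polynomial.map_surjective π hs G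
  refine ⟨toLaurent G' * T (-k), ?_⟩
  have h1 := h.T_neg k
  rw [map_one, one_pow, mul_one] at h1
  rw [map_mul, h.poly, map_one, one_mul, comp_X, hG, h1, mul_assoc, mul_comm (T _), T_neg_mul,
    mul_one]

theorem Tw.ker {π : R →+* S} {Ψ : LaurentPolynomial R →+* LaurentPolynomial S}
    (h : Tw π 1 Ψ) : RingHom.ker Ψ = (RingHom.ker π).map LaurentPolynomial.C := by
  apply le_antisymm
  · intro y hy
    obtain ⟨k, G, hG⟩ := exists_T_pow y
    have h1 : toLaurent (G.map π) = 0 := by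
      have h2 := h.poly G
      rw [map_one, one_mul, comp_X] at h2
      rw [← h2, hG, map_mul, RingHom.mem_ker.1 hy, zero_mul]
    have h3 : G ∈ RingHom.ker (mapRingHom π) := toLaurent_eq_zero.1 h1
    rw [ker_mapRingHom] at h3
    have h4 := Ideal.mem_map_of_mem toLaurent h3
    rw [Ideal.map_map, hG, Ideal.mul_unit_mem_iff_mem _ (isUnit_T _)] at h4
    convert h4
    ext1 x
    exact (toLaurent_C x).symm
  · rw [Ideal.map_le_iff_le_comap]
    intro x hx
    rw [Ideal.mem_comap, RingHom.mem_ker, h.1, RingHom.mem_ker.1 hx, map_zero]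

/-- evaluation of a polynomial at `a u^(-m)`. -/
noncomputable def ev {K : Type*} [CommRing K] (κ : K →+* R) (a : R) (m : ℕ) :
    K[X] →+* LaurentPolynomial R :=
  eval₂RingHom (LaurentPolynomial.C.comp κ) (LaurentPolynomial.C a * T (-m))

theorem ev_C {K : Type*} [CommRing K] (κ : K →+* R) (a : R) (m : ℕ) (c : K) :
    ev κ a m (C c) = LaurentPolynomial.C (κ c) := by
  rw [ev, coe_eval₂RingHom, eval₂_C, RingHom.comp_apply]

theorem ev_X {K : Type*} [CommRing K] (κ : K →+* R) (a : R) (m : ℕ) :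
    ev κ a m X = LaurentPolynomial.C a * T (-m) := by
  rw [ev, coe_eval₂RingHom, eval₂_X]

theorem ev_monomial {K : Type*} [CommRing K] (κ : K →+* R) (a : R) (m l : ℕ) (c : K) :
    ev κ a m (monomial l c) = LaurentPolynomial.C (κ c * a ^ l) * T (-(m * l : ℕ)) := by
  rw [← C_mul_X_pow_eq_monomial, map_mul, map_pow, ev_C, ev_X, mul_pow, T_pow, map_mul, map_pow,
    mul_assoc]
  congr 3
  push_cast
  ring

theorem Tw.ev {K K' : Type*} [CommRing K] [CommRing K'] {κ : K →+* R} {κ' : K' →+* S} {a : R}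
    {a' : S} {m : ℕ} {ψ : R →+* S} {t : S} {Ψ : LaurentPolynomial R →+* LaurentPolynomial S}
    (h : Tw ψ t Ψ) {σ : K →+* K'} (hσ : ∀ c, ψ (κ c) = κ' (σ c)) (ha : ψ a = a' * t ^ m)
    (Q : K[X]) : Ψ (ev κ a m Q) = ev κ' a' m (Q.map σ) := by
  have h1 : Ψ.comp (N217X.ev κ a m) = (N217X.ev κ' a' m).comp (mapRingHom σ) := by
    refine Polynomial.ringHom_ext (fun x => ?_) ?_
    · rw [RingHom.comp_apply, RingHom.comp_apply, coe_mapRingHom, map_C, ev_C, ev_C, h.1, hσ]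
    · rw [RingHom.comp_apply, RingHom.comp_apply, coe_mapRingHom, map_X, ev_X, ev_X, map_mul, h.1,
        ha, map_mul, map_pow, mul_assoc, mul_comm (_ ^ m), h.T_neg]
  exact RingHom.congr_fun h1 Q

theorem ev_zero {K : Type*} [CommRing K] (κ : K →+* R) (a : R) (Q : K[X]) :
    ev κ a 0 Q = LaurentPolynomial.C (Q.eval₂ κ a) := by
  rw [ev, coe_eval₂RingHom, hom_eval₂, Nat.cast_zero, neg_zero, T_zero, mul_one]

theorem Tw.map_map {ψ : R →+* S} {t : S} {Ψ : LaurentPolynomial R →+* LaurentPolynomial S}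
    (h : Tw ψ t Ψ) (I : Ideal R) :
    (I.map LaurentPolynomial.C).map Ψ = (I.map ψ).map LaurentPolynomial.C := by
  rw [Ideal.map_map, Ideal.map_map]
  congr 1
  exact RingHom.ext h.1

theorem comap_span {f : R →+* S} (hf : Function.Surjective f) (x : R) :
    (Ideal.span {f x}).comap f = RingHom.ker f ⊔ Ideal.span {x} := by
  rw [← Set.image_singleton, ← Ideal.map_span, Ideal.comap_map_of_surjective f hf, sup_comm]
  rfl

theorem exists_desc {π : R →+* S} (hs : Function.Surjective π) (φ : R →+* R)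
    (h : ∀ x ∈ RingHom.ker π, φ x ∈ RingHom.ker π) : ∃ ψ : S →+* S, ∀ x, ψ (π x) = π (φ x) :=
  ⟨π.liftOfSurjective hs ⟨π.comp φ, h⟩, fun x => π.liftOfRightInverse_comp_apply _ _ _ x⟩

theorem Tw.equiv (φ : R ≃+* R) {t : R} (ht : IsUnit t)
    {Φ : LaurentPolynomial R →+* LaurentPolynomial R} (h : Tw (φ : R →+* R) t Φ) :
    ∃ e : LaurentPolynomial R ≃+* LaurentPolynomial R, Φ = e := by
  obtain ⟨t, rfl⟩ := ht
  obtain ⟨Φ', h'⟩ := exists_tw (φ.symm : R →+* R) (t⁻¹.isUnit.map φ.symm)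
  refine ⟨RingEquiv.ofRingHom Φ Φ' (Tw.unique ?_ tw_id) (Tw.unique ?_ tw_id), rfl⟩
  · convert h'.comp h
    · ext x
      simp
    · simp
  · convert h.comp h'
    · ext x
      simp
    · rw [RingHom.coe_coe, ← map_mul, t.mul_inv, map_one]

theorem map_iInf_eq (e : R ≃+* R) {ι : Type*} {s : Set ι} (P : ι → Ideal R)
    (h : ∀ i ∈ s, (P i).map (e : R →+* R) = P i) :
    (⨅ i ∈ s, P i).map (e : R →+* R) = ⨅ i ∈ s, P i := by
  simp only [Ideal.map_comap_of_equiv, Ideal.comap_iInf] at h ⊢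
  exact biInf_congr h

theorem comap_min {Φ : R →+* R} (hΦ : Function.Bijective Φ) {J : Ideal R} (hJ : J.map Φ = J)
    {P : Ideal R} (hP : P ∈ J.minimalPrimes) : P.comap Φ ∈ J.minimalPrimes := by
  have h1 : J.comap Φ = J := by
    conv_lhs => rw [← hJ]
    exact Ideal.comap_map_of_bijective Φ hΦ
  rw [← h1, Ideal.comap_minimalPrimes_eq_of_surjective hΦ.2]
  exact ⟨P, hP, rfl⟩

variable {A K ι : Type*} [CommRing A] [IsDomain A] [CommRing K]

theorem lcore (ψ : ι → A →+* A) (t : ι → A) (ht : ∀ j, IsUnit (t j)) (κ : K →+* A) {a : A}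
    (ha : a ≠ 0) (m : ℕ) (hψa : ∀ j, ψ j a = a * t j ^ m)
    (hL : ∀ L : Ideal A, L ≠ ⊥ → (∀ j, ∀ x ∈ L, ψ j x ∈ L) → ∃ N, a ^ N ∈ L)
    (hw : ∀ (x : A) (i b : ℕ), i < b → (∀ j, ψ j x * t j ^ i = x * t j ^ b) →
      x = 0 ∨ ∃ l c, b = i + m * l ∧ x = κ c * a ^ l)
    (P : Ideal (LaurentPolynomial A)) (hinv : ∀ j Ψ, Tw (ψ j) (t j) Ψ → ∀ y ∈ P, Ψ y ∈ P)
    (hA : ∀ x y, x ≠ 0 → LaurentPolynomial.C x * y ∈ P → y ∈ P) :
    ∃ Q, P = Ideal.span {ev κ a m Q} := by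
  by_cases h0 : P.comap toLaurent = ⊥
  · refine ⟨0, ?_⟩
    rw [map_zero, Ideal.span_singleton_zero, eq_bot_iff]
    intro y hy
    obtain ⟨k, G, hG⟩ := exists_T_pow y
    have h1 : G ∈ P.comap toLaurent := by
      rw [Ideal.mem_comap, hG]
      exact P.mul_mem_right _ hy
    rw [h0, Ideal.mem_bot] at h1
    rw [h1, map_zero] at hG
    exact (isUnit_T _).mul_left_eq_zero.1 hG.symm
  obtain ⟨f, h1, h2, h3⟩ := core ψ t ht κ ha m hψa hL hw (P.comap toLaurent) (fun j G hG => by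
    obtain ⟨Ψ, hΨ⟩ := exists_tw (ψ j) (ht j)
    rw [Ideal.mem_comap, ← hΨ.poly]
    exact hinv j Ψ hΨ _ hG) (fun x G hx hG => by
    rw [Ideal.mem_comap, map_mul, toLaurent_C] at hG
    exact hA x _ hx hG) h0
  obtain ⟨Q, hQ⟩ : toLaurent f * T (-f.natDegree) ∈ (ev κ a m).range := by
    have e : toLaurent f = ∑ i ∈ Finset.range (f.natDegree + 1),
        toLaurent (monomial i (f.coeff i)) := by
      rw [← map_sum, ← f.as_sum_range]
    rw [e, Finset.sum_mul]
    refine Subring.sum_mem _ fun i hi => ?_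
    rw [toLaurent_C_mul_T]
    rcases (Nat.lt_succ_iff.1 (Finset.mem_range.1 hi)).eq_or_lt with rfl | hlt
    · rw [h1.coeff_natDegree, map_one, one_mul, mul_comm, T_neg_mul]
      exact Subring.one_mem _
    rcases h3 i hlt with h4 | ⟨l, c, h4, h5⟩
    · rw [h4, map_zero, zero_mul, zero_mul]
      exact Subring.zero_mem _
    · refine ⟨monomial l c, ?_⟩
      rw [ev_monomial, h5, mul_assoc, ← T_add, h4]
      congr 2
      push_cast
      ring
  refine ⟨Q, ?_⟩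
  rw [hQ, Ideal.span_singleton_mul_right_unit (isUnit_T _)]
  apply le_antisymm
  · intro y hy
    obtain ⟨k, G, hG⟩ := exists_T_pow y
    have h4 : G ∈ P.comap toLaurent := by
      rw [Ideal.mem_comap, hG]
      exact P.mul_mem_right _ hy
    rw [h2, Ideal.mem_span_singleton] at h4
    rw [← Ideal.mul_unit_mem_iff_mem _ (isUnit_T k), ← hG, Ideal.mem_span_singleton]
    exact map_dvd _ h4
  · rw [Ideal.span_singleton_le_iff_mem, ← Ideal.mem_comap, h2]
    exact Ideal.subset_span rfl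

end Laurent

end Vale.Agent.N217X
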