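import Mathlib

/-!
# P217: Lubin-Tate rings `E₀` and `E_* = E₀[u, u⁻¹]` with the action of the stabilizer group

Formal group laws are Mathlib's `FormalGroup R` (one-dimensional formal group laws over `R`).
-/

namespace Vale.Agent.N217X

open MvPowerSeries

section FormalGroups

variable {R S k l : Type*} [CommRing R] [CommRing S] [CommRing k] [CommRing l]

/-- The series `[m]_F(X)`: `[0]_F = 0`, `[m+1]_F(X) = F([m]_F(X), X)`. -/
noncomputable def multSeries (F : FormalGroup R) (m : ℕ) : PowerSeries R :=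
  (fun f : PowerSeries R => MvPowerSeries.subst ![f, PowerSeries.X] F.toPowerSeries)^[m] 0

/-- `g` is an isomorphism of formal group laws `F → G`: `g(0) = 0`, `g'(0)` is a unit and
`g(F(X,Y)) = G(g(X), g(Y))`. -/
def IsIso (F G : FormalGroup R) (g : PowerSeries R) : Prop :=
  PowerSeries.constantCoeff g = 0 ∧ IsUnit (PowerSeries.coeff 1 g) ∧
    PowerSeries.subst F.toPowerSeries g =
      MvPowerSeries.subst
        ![(PowerSeries.subst (X 0 : MvPowerSeries (Fin 2) R) g : MvPowerSeries (Fin 2) R),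
          (PowerSeries.subst (X 1 : MvPowerSeries (Fin 2) R) g : MvPowerSeries (Fin 2) R)]
        G.toPowerSeries

/-- `φ : R → S` lifts `j : k → l`, and `g` is an isomorphism `φ_* F → G` which lifts `γ`. -/
def Lifts (r : R →+* k) (s : S →+* l) (j : k →+* l) (γ : PowerSeries l) (F : FormalGroup R)
    (G : FormalGroup S) (φ : R →+* S) (g : PowerSeries S) : Prop :=
  s.comp φ = j.comp r ∧ IsIso (F.map φ) G g ∧ g.map s = γ

end FormalGroups

variable (p n : ℕ) [Fact p.Prime]

/-- `E₀ = W(𝔽_{p^n})[[u_1, …, u_{n-1}]]`; the variable `u_i` is `X ⟨i-1, _⟩`. -/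
abbrev E0 : Type := MvPowerSeries (Fin (n - 1)) (WittVector p (GaloisField p n))

/-- The residue map `E₀ → 𝔽_{p^n}`. -/
noncomputable def red : E0 p n →+* GaloisField p n :=
  WittVector.constantCoeff.comp MvPowerSeries.constantCoeff

/-- `Γ` considered over `𝔽_{p^n}`. -/
noncomputable def base (Γ : FormalGroup (ZMod p)) : FormalGroup (GaloisField p n) :=
  Γ.map (algebraMap (ZMod p) (GaloisField p n))

/-- `I_0 = 0` and `I_h = (p, u_1, …, u_{h-1})` for `h ≥ 1`. -/
noncomputable def heightIdeal (h : ℕ) : Ideal (E0 p n) :=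
  if h = 0 then ⊥
  else Ideal.span ({(p : E0 p n)} ∪ {x | ∃ i : Fin (n - 1), (i : ℕ) + 1 < h ∧ x = X i})

/-- `F` is a universal deformation of `Γ` over `𝔽_{p^n}`: it reduces to `Γ`, and for every complete
noetherian local ring `A`, every `i : 𝔽_{p^n} → A/𝔪` and every law `G` over `A` which reduces to
`i_* Γ` there are a unique `φ : E₀ → A` which lifts `i` and a unique isomorphism `φ_* F → G` which
is `X` modulo `𝔪`. -/
def IsUniversal (Γ : FormalGroup (ZMod p)) (F : FormalGroup (E0 p n)) : Prop :=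
  F.IsComm ∧ F.map (red p n) = base p n Γ ∧
    ∀ (A : Type) [CommRing A] [IsLocalRing A] [IsNoetherianRing A]
      [IsAdicComplete (IsLocalRing.maximalIdeal A) A]
      (i : GaloisField p n →+* IsLocalRing.ResidueField A) (G : FormalGroup A), G.IsComm →
      G.map (IsLocalRing.residue A) = (base p n Γ).map i →
      ∃! x : (E0 p n →+* A) × PowerSeries A,
        Lifts (red p n) (IsLocalRing.residue A) i PowerSeries.X F G x.1 x.2

/-- `I_h` cuts out the locus of height at least `h`: a prime `P` contains `I_h` if and only if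
`X^(p^h)` divides the `p`-series of `F` modulo `P`. -/
def CutsOut (F : FormalGroup (E0 p n)) : Prop :=
  ∀ h : ℕ, 1 ≤ h → h ≤ n → ∀ P : Ideal (E0 p n), P.IsPrime →
    (heightIdeal p n h ≤ P ↔
      PowerSeries.X ^ p ^ h ∣ multSeries (F.map (Ideal.Quotient.mk P)) p)

/-- The element `(γ, σ)` of `G_n = Aut(Γ/𝔽_{p^n}) ⋊ Gal(𝔽_{p^n}/𝔽_p)` acts on `E₀` by `φ`: `γ` is
an automorphism of `Γ`, `φ` lifts `σ`, and `g` is an isomorphism `φ_* F → F` which lifts `γ`. -/
def Acts (Γ : FormalGroup (ZMod p)) (F : FormalGroup (E0 p n))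
    (σ : GaloisField p n ≃+* GaloisField p n) (γ : PowerSeries (GaloisField p n))
    (φ : E0 p n →+* E0 p n) (g : PowerSeries (E0 p n)) : Prop :=
  IsIso (base p n Γ) (base p n Γ) γ ∧
    Lifts (red p n) (red p n) (σ : GaloisField p n →+* GaloisField p n) γ F F φ g

/-- The ideal `J` of `E₀` is invariant under `G_n`. -/
def IsInvariant (Γ : FormalGroup (ZMod p)) (F : FormalGroup (E0 p n)) (J : Ideal (E0 p n)) :
    Prop :=
  ∀ σ γ φ g, Acts p n Γ F σ γ φ g → J.map φ = J

/-- `E_* = E₀[u, u⁻¹]` as an ungraded ring; `u` is `T 1`. -/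
abbrev EStar : Type := LaurentPolynomial (E0 p n)

/-- The action on `E_*`: `Φ` extends `φ` and `Φ(u) = g'(0) u`. -/
def Extends (φ : E0 p n →+* E0 p n) (g : PowerSeries (E0 p n)) (Φ : EStar p n →+* EStar p n) :
    Prop :=
  (∀ x, Φ (LaurentPolynomial.C x) = LaurentPolynomial.C (φ x)) ∧
    Φ (LaurentPolynomial.T 1) = LaurentPolynomial.C (PowerSeries.coeff 1 g) * LaurentPolynomial.T 1

/-- The ideal `P` of `E_*` is invariant under the elements `(γ, σ)` of `G_n` with `σ` in `S`. -/
def IsInvariantStar (Γ : FormalGroup (ZMod p)) (F : FormalGroup (E0 p n))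
    (S : Set (GaloisField p n ≃+* GaloisField p n)) (P : Ideal (EStar p n)) : Prop :=
  ∀ σ ∈ S, ∀ γ φ g Φ, Acts p n Γ F σ γ φ g → Extends p n φ g Φ → P.map Φ = P

/-- `v_h = a_h u^(1 - p^h)`, where `a_h` is the coefficient of `X^(p^h)` in `[p]_F(X)`. -/
noncomputable def v (F : FormalGroup (E0 p n)) (h : ℕ) : EStar p n :=
  LaurentPolynomial.C (PowerSeries.coeff (p ^ h) (multSeries F p)) *
    LaurentPolynomial.T (1 - (p : ℤ) ^ h)

/-- The ideal `I_h E_* + (Q(v_h))` of `E_*` for a polynomial `Q` over `W(𝔽_{p^n})`. -/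
noncomputable def vIdeal (F : FormalGroup (E0 p n)) (h : ℕ)
    (Q : Polynomial (WittVector p (GaloisField p n))) : Ideal (EStar p n) :=
  (heightIdeal p n h).map LaurentPolynomial.C ⊔
    Ideal.span {Q.eval₂ (LaurentPolynomial.C.comp MvPowerSeries.C) (v p n F h)}

/-- The reduction `Q̄` of `Q` modulo `p`, a polynomial over `𝔽_{p^n}`. -/
noncomputable def bar (Q : Polynomial (WittVector p (GaloisField p n))) :
    Polynomial (GaloisField p n) :=
  Q.map WittVector.constantCoeff

/-- `Q̄` is fixed by the elements of `S`. -/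
def FixedBy (S : Set (GaloisField p n ≃+* GaloisField p n))
    (Q : Polynomial (WittVector p (GaloisField p n))) : Prop :=
  ∀ σ ∈ S, (bar p n Q).map (σ : GaloisField p n →+* GaloisField p n) = bar p n Q

/-- `Q̄(0) ≠ 0`, and `Q̄(X)` (for `h < n`), respectively `Q̄(X^(p^n - 1))` (for `h = n`), is
irreducible over `𝔽_{p^n}`. -/
def Irred (h : ℕ) (Q : Polynomial (WittVector p (GaloisField p n))) : Prop :=
  (bar p n Q).coeff 0 ≠ 0 ∧
    Irreducible (Polynomial.expand (GaloisField p n) (if h = n then p ^ n - 1 else 1) (bar p n Q))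

end Vale.Agent.N217X
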