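import Vale.Agent.N217X.Core
import Vale.Agent.N217.Kill

/-!
# P217: which of the ideals `(Q(a u^(-m)))` are prime
-/

namespace Vale.Agent.N217X

open Polynomial
open LaurentPolynomial (T isUnit_T T_add T_zero T_pow exists_T_pow invert)

theorem gen' {K B : Type*} [Field K] [CommRing B] (e : K[X] →+* B) {P : Ideal B} {Q : K[X]}
    (hQ : P = Ideal.span {e Q}) :
    ∃ Q₀ : K[X], P.comap e = Ideal.span {Q₀} ∧ P = Ideal.span {e Q₀} ∧
      ∀ σ : K →+* K, e (Q₀.map σ) ∈ P → Q₀.map σ = Q₀ := by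
  obtain ⟨g, hg⟩ := (IsPrincipalIdealRing.principal (P.comap e)).principal
  obtain ⟨Q₀, hsp, hmon⟩ : ∃ Q₀ : K[X], P.comap e = Ideal.span {Q₀} ∧ (Q₀ = 0 ∨ Q₀.Monic) := by
    by_cases hg0 : g = 0
    · exact ⟨g, hg, Or.inl hg0⟩
    refine ⟨g * C (leadingCoeff g)⁻¹, ?_, Or.inr (monic_mul_leadingCoeff_inv hg0)⟩
    rw [hg, Ideal.submodule_span_eq, Ideal.span_singleton_mul_right_unit
      (isUnit_C.2 (inv_ne_zero (leadingCoeff_ne_zero.2 hg0)).isUnit)]
  have hQP : Q ∈ P.comap e := by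
    rw [Ideal.mem_comap, hQ]
    exact Ideal.subset_span rfl
  refine ⟨Q₀, hsp, le_antisymm ?_ ?_, fun σ hσ => ?_⟩
  · rw [hQ, Ideal.span_singleton_le_span_singleton]
    rw [hsp, Ideal.mem_span_singleton] at hQP
    exact map_dvd e hQP
  · rw [Ideal.span_singleton_le_iff_mem, ← Ideal.mem_comap, hsp]
    exact Ideal.subset_span rfl
  · rcases hmon with rfl | hmon
    · exact Polynomial.map_zero σ
    rw [← Ideal.mem_comap, hsp, Ideal.mem_span_singleton] at hσ
    exact eq_of_monic_of_dvd_of_natDegree_le hmon (hmon.map σ) hσ natDegree_map_le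

theorem gen {K B : Type*} [Field K] [CommRing B] (e : K[X] →+* B) {P : Ideal B} (hP : P.IsPrime)
    {Q : K[X]} (hsp : P.comap e = Ideal.span {Q}) (h0 : Q ≠ 0) (hX : e X ∉ P) :
    Irreducible Q ∧ Q.coeff 0 ≠ 0 := by
  have hpr : Prime Q := by
    rw [← Ideal.span_singleton_prime h0, ← hsp]
    exact Ideal.comap_isPrime e P
  refine ⟨hpr.irreducible, fun h => hX ?_⟩
  rw [← Ideal.mem_comap, hsp, Ideal.mem_span_singleton]
  exact ((irreducible_X.associated_of_dvd hpr.irreducible (X_dvd_iff.2 h)).symm).dvd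

theorem rad_of_irr {K B : Type*} [Field K] [CommRing B] [IsDomain B] (e : K[X] →+* B)
    (h : ∀ Q, Irreducible Q → IsRadical (e Q)) {Q : K[X]} (hQ : Q = 0 ∨ Squarefree Q) :
    (Ideal.span {e Q}).IsRadical := by
  rcases hQ with rfl | hQ
  · rw [map_zero, Ideal.span_singleton_zero]
    exact Ideal.isPrime_bot.isRadical
  rw [← isRadical_iff_span_singleton]
  induction Q using UniqueFactorizationMonoid.induction_on_coprime with
  | h0 => exact absurd hQ not_squarefree_zero
  | h1 hu => exact fun _ _ _ => (hu.map e).dvd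
  | hpr i hp =>
    rcases hQ.eq_zero_or_one_of_pow_of_not_isUnit hp.not_isUnit with rfl | rfl
    · exact fun _ _ _ => by simp
    · rw [pow_one]
      exact h _ hp.irreducible
  | hcp hxy h1 h2 =>
    intro N z hz
    rw [map_mul] at hz ⊢
    exact (hxy.isCoprime.map e).mul_dvd (h1 hQ.of_mul_left N z (dvd_of_mul_right_dvd hz))
      (h2 hQ.of_mul_right N z (dvd_of_mul_left_dvd hz))

theorem rad_X {K A : Type*} [Field K] [CommRing A] (κ : K →+* A) {a : A}
    (ha : IsRadical (LaurentPolynomial.C a)) (m : ℕ) {Q : K[X]} (hQ : Irreducible Q)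
    (h0 : Q.coeff 0 = 0) : IsRadical (ev κ a m Q) := by
  have h1 : Associated (LaurentPolynomial.C a) (ev κ a m Q) := by
    refine Associated.trans ?_ ((irreducible_X.associated_of_dvd hQ (X_dvd_iff.2 h0)).map _)
    rw [ev_X]
    exact associated_mul_unit_right _ _ (isUnit_T _)
  exact fun N z hz => h1.symm.dvd.trans (ha N z (h1.dvd.trans hz))

theorem rad_C {A : Type*} [CommRing A] {a : A} (ha : Prime a) :
    IsRadical (LaurentPolynomial.C a) := by
  have hP : (Ideal.span {a}).IsPrime := (Ideal.span_singleton_prime ha.ne_zero).2 ha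
  obtain ⟨Θ, hΘ⟩ := exists_tw (Ideal.Quotient.mk (Ideal.span {a})) isUnit_one
  have h1 := RingHom.ker_isPrime Θ
  rw [hΘ.ker, Ideal.mk_ker, Ideal.map_span, Set.image_singleton] at h1
  exact isRadical_iff_span_singleton.2 h1.isRadical

theorem dvd_of_toLaurent {K : Type*} [Field K] {g x : K[X]} (hg : g.coeff 0 ≠ 0)
    (h : toLaurent g ∣ toLaurent x) : g ∣ x := by
  obtain ⟨z, hz⟩ := h
  obtain ⟨k, w, hw⟩ := exists_T_pow z
  have h1 : x * X ^ k = g * w := by
    apply toLaurent_injective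
    rw [map_mul, map_mul, toLaurent_X_pow, hz, hw, mul_assoc]
  have h2 : IsCoprime X g := irreducible_X.coprime_iff_not_dvd.2 fun h => hg (X_dvd_iff.1 h)
  exact (h2.symm.pow_right (n := k)).dvd_of_dvd_mul_right ⟨w, h1⟩

theorem prime_toLaurent {K : Type*} [Field K] {g : K[X]} (hg : g.coeff 0 ≠ 0) :
    Prime (toLaurent g) ↔ Irreducible g := by
  have hg0 : g ≠ 0 := fun h => hg (by rw [h, coeff_zero])
  rw [irreducible_iff_prime]
  constructor
  · intro h
    refine ⟨hg0, fun hu => h.not_isUnit (hu.map _), fun x y hxy => ?_⟩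
    have h1 := map_dvd toLaurent hxy
    rw [map_mul] at h1
    exact (h.dvd_or_dvd h1).imp (dvd_of_toLaurent hg) (dvd_of_toLaurent hg)
  · intro h
    refine ⟨toLaurent_ne_zero.2 hg0, fun hu => h.not_isUnit ?_, fun y z hyz => ?_⟩
    · exact isUnit_of_dvd_one (dvd_of_toLaurent hg (hu.dvd))
    · obtain ⟨k, y', hy⟩ := exists_T_pow y
      obtain ⟨l, z', hz⟩ := exists_T_pow z
      have h1 : toLaurent g ∣ toLaurent (y' * z') := by
        rw [map_mul, hy, hz, mul_mul_mul_comm]
        exact hyz.mul_right _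
      refine (h.dvd_or_dvd (dvd_of_toLaurent hg h1)).imp (fun h2 => ?_) fun h2 => ?_
      · rw [← (isUnit_T k).dvd_mul_right, ← hy]
        exact map_dvd _ h2
      · rw [← (isUnit_T l).dvd_mul_right, ← hz]
        exact map_dvd _ h2

theorem ev_top {K : Type*} [Field K] (m : ℕ) (Q : K[X]) :
    ev (RingHom.id K) 1 m Q = invert (toLaurent (expand K m Q)) := by
  have h2 : ev (RingHom.id K) 1 m = ((invert (R := K) : LaurentPolynomial K →+*
      LaurentPolynomial K).comp toLaurent).comp (expand K m : K[X] →+* K[X]) := by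
    refine Polynomial.ringHom_ext (fun x => ?_) ?_
    · rw [ev_C]
      simp
    · rw [ev_X]
      simp
  rw [h2]
  rfl

theorem expand_zero {K : Type*} [Field K] {m : ℕ} (hm : 1 ≤ m) (Q : K[X]) :
    (expand K m Q).coeff 0 = Q.coeff 0 := by
  rw [coeff_expand (by omega), if_pos (dvd_zero m), Nat.zero_div]

theorem prime_top {K : Type*} [Field K] {m : ℕ} (hm : 1 ≤ m) {Q : K[X]} (hQ : Q.coeff 0 ≠ 0) :
    (Ideal.span {ev (RingHom.id K) 1 m Q}).IsPrime ↔ Irreducible (expand K m Q) := by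
  have h3 : (expand K m Q).coeff 0 ≠ 0 := by rwa [expand_zero hm]
  have h4 : expand K m Q ≠ 0 := fun h => h3 (by rw [h, coeff_zero])
  rw [ev_top, Ideal.span_singleton_prime (by simpa using h4), MulEquiv.prime_iff,
    prime_toLaurent h3]

theorem rad_top {K : Type*} [Field K] [PerfectField K] {m : ℕ} (hm : (m : K) ≠ 0) {Q : K[X]}
    (hQ : Irreducible Q) : IsRadical (ev (RingHom.id K) 1 m Q) := by
  by_cases h0 : Q.coeff 0 = 0
  · exact rad_X _ (fun _ _ _ => by simp) m hQ h0
  have hm1 : 1 ≤ m := Nat.pos_of_ne_zero fun h => hm (by rw [h, Nat.cast_zero])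
  have h3 : (expand K m Q).coeff 0 ≠ 0 := by rwa [expand_zero hm1]
  have h4 : (expand K m Q).Separable := by
    rw [Separable, derivative_expand]
    refine (IsCoprime.map (PerfectField.separable_of_irreducible hQ)
      (expand K m : K[X] →+* K[X])).mul_right (IsCoprime.mul_right ?_ ?_)
    · rw [← C_eq_natCast]
      exact (isUnit_C.2 hm.isUnit).isRelPrime_right.isCoprime
    · exact (irreducible_X.coprime_iff_not_dvd.2 fun h => h3 (X_dvd_iff.1 h)).symm.pow_right
  intro N z hz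
  obtain ⟨z, rfl⟩ := (invert (R := K)).surjective z
  rw [ev_top, map_dvd_iff]
  rw [ev_top, ← map_pow, map_dvd_iff] at hz
  obtain ⟨k, y, hy⟩ := exists_T_pow z
  rw [← (isUnit_T k).dvd_mul_right, ← hy]
  refine map_dvd _ (h4.squarefree.isRadical N y (dvd_of_toLaurent h3 ?_))
  rw [map_pow, hy, mul_pow]
  exact hz.mul_right _

theorem dom_of {S : Type*} [CommRing S] (u : S) (h1 : ∀ s, u * s = 0 → s = 0)
    (h2 : ∀ s s', u ∣ s * s' → u ∣ s ∨ u ∣ s') (h3 : ∀ s, (∀ N, u ^ N ∣ s) → s = 0) :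
    NoZeroDivisors S := by
  classical
  have h4 : ∀ N s, u ^ N * s = 0 → s = 0 := by
    intro N
    induction N with
    | zero => simp
    | succ N ih => exact fun s h => ih s (h1 _ (by rw [← h]; ring))
  have h5 : ∀ s : S, s ≠ 0 → ∃ N s', s = u ^ N * s' ∧ ¬ u ∣ s' := by
    intro s hs
    have hex : ∃ N, ¬ u ^ (N + 1) ∣ s := by
      by_contra h
      push Not at h
      exact hs (h3 s fun N => (pow_dvd_pow u N.le_succ).trans (h N))
    obtain ⟨s', hs'⟩ : u ^ Nat.find hex ∣ s := by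
      rcases Nat.eq_zero_or_eq_succ_pred (Nat.find hex) with h | h
      · rw [h, pow_zero]
        exact one_dvd _
      · rw [h]
        exact not_not.1 (Nat.find_min hex (by omega))
    refine ⟨_, s', hs', fun h => Nat.find_spec hex ?_⟩
    have h7 := mul_dvd_mul_left (u ^ Nat.find hex) h
    rwa [← hs', ← pow_succ] at h7
  refine ⟨fun {x y} hxy => ?_⟩
  by_contra h
  push Not at h
  obtain ⟨N, x', e1, e2⟩ := h5 x h.1
  obtain ⟨M, y', e3, e4⟩ := h5 y h.2
  have h6 : x' * y' = 0 := h4 (N + M) _ (by rw [← hxy, e1, e3]; ring)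
  exact (h2 x' y' (h6 ▸ dvd_zero u)).elim e2 e4

theorem eq_zero_of_mk {A : Type*} [CommRing A] [IsDomain A] {b : A} {m : ℕ} (hm : 1 ≤ m)
    {G : A[X]} (h1 : G.degree < m) (h2 : AdjoinRoot.mk (X ^ m - C b) G = 0) : G = 0 := by
  rw [AdjoinRoot.mk_eq_zero] at h2
  exact eq_zero_of_dvd_of_degree_lt h2 (by rwa [degree_X_pow_sub_C hm])

theorem root_pow {A : Type*} [CommRing A] (b : A) (m : ℕ) :
    AdjoinRoot.root (X ^ m - C b) ^ m = AdjoinRoot.of (X ^ m - C b) b := by
  have h := AdjoinRoot.mk_self (f := X ^ m - C b)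
  rwa [map_sub, map_pow, AdjoinRoot.mk_X, AdjoinRoot.mk_C, sub_eq_zero] at h

theorem root_dom {A : Type*} [CommRing A] [IsDomain A] {b : A} (hb : Prime b)
    (hsep : ∀ x, (∀ N, b ^ N ∣ x) → x = 0) {m : ℕ} (hm : 1 ≤ m) :
    IsDomain (AdjoinRoot (X ^ m - C b)) ∧ AdjoinRoot.root (X ^ m - C b) ≠ 0 := by
  set g : A[X] := X ^ m - C b with hg
  have hmon : g.Monic := monic_X_pow_sub_C b (by omega)
  have hrep : ∀ s : AdjoinRoot g, ∃ G : A[X], G.degree < m ∧ AdjoinRoot.mk g G = s := by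
    intro s
    obtain ⟨G, rfl⟩ := AdjoinRoot.mk_surjective s
    refine ⟨G %ₘ g, ?_, ?_⟩
    · rw [← degree_X_pow_sub_C hm b]
      exact degree_modByMonic_lt G hmon
    · rw [modByMonic_eq_sub_mul_div, map_sub, map_mul, AdjoinRoot.mk_self, zero_mul, sub_zero]
  have hP : (Ideal.span {b}).IsPrime := (Ideal.span_singleton_prime hb.ne_zero).2 hb
  have hb0 : Ideal.Quotient.mk (Ideal.span {b}) b = 0 :=
    Ideal.Quotient.eq_zero_iff_mem.2 (Ideal.subset_span rfl)
  let ρ : AdjoinRoot g →+* A ⧸ Ideal.span {b} :=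
    AdjoinRoot.lift (Ideal.Quotient.mk _) 0 (by
      rw [hg, eval₂_sub, eval₂_X_pow, eval₂_C, hb0, zero_pow (by omega), sub_zero])
  have hρ : ∀ s, AdjoinRoot.root g ∣ s ↔ ρ s = 0 := by
    intro s
    constructor
    · rintro ⟨z, rfl⟩
      rw [map_mul, AdjoinRoot.lift_root, zero_mul]
    · intro h
      obtain ⟨G, rfl⟩ := AdjoinRoot.mk_surjective s
      rw [AdjoinRoot.lift_mk, eval₂_at_zero, Ideal.Quotient.eq_zero_iff_mem,
        Ideal.mem_span_singleton] at h
      obtain ⟨c, hc⟩ := h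
      rw [← X_mul_divX_add G, map_add, map_mul, AdjoinRoot.mk_X, hc, C_mul, map_mul,
        AdjoinRoot.mk_C, ← root_pow]
      exact dvd_add (dvd_mul_right _ _) ((dvd_pow_self _ (by omega)).mul_right _)
  have h1 : ∀ s, AdjoinRoot.root g * s = 0 → s = 0 := by
    intro s hs
    obtain ⟨G, h1, rfl⟩ := hrep s
    have h2 : C b * G = 0 := by
      refine eq_zero_of_mk (b := b) hm ((degree_C_mul hb.ne_zero).trans_lt h1) ?_
      obtain ⟨c, hc⟩ := dvd_pow_self (AdjoinRoot.root g) (show m ≠ 0 by omega)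
      rw [map_mul, AdjoinRoot.mk_C, ← root_pow, hc, mul_right_comm, hs, zero_mul]
    rw [(mul_eq_zero.1 h2).resolve_left (C_ne_zero.2 hb.ne_zero), map_zero]
  have hnt : Nontrivial (AdjoinRoot g) := ρ.domain_nontrivial
  have hnz := dom_of (AdjoinRoot.root g) h1 (fun s s' h => by
    rw [hρ, map_mul, mul_eq_zero] at h
    rwa [hρ, hρ]) (fun s h => by
    obtain ⟨G, h1, rfl⟩ := hrep s
    suffices G = 0 by rw [this, map_zero]
    ext i
    refine hsep _ fun N => ?_
    obtain ⟨z, hz⟩ := h (m * N)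
    obtain ⟨H, h2, rfl⟩ := hrep z
    have h3 : G - C (b ^ N) * H = 0 := by
      refine eq_zero_of_mk (b := b) hm ((degree_sub_le _ _).trans_lt (max_lt h1
        ((degree_C_mul (pow_ne_zero _ hb.ne_zero)).trans_lt h2))) ?_
      rw [map_sub, hz, pow_mul, root_pow, map_mul, AdjoinRoot.mk_C, map_pow, sub_self]
    rw [sub_eq_zero.1 h3, coeff_C_mul]
    exact dvd_mul_right _ _)
  exact ⟨NoZeroDivisors.to_isDomain _, fun h => one_ne_zero (h1 1 (by rw [h, zero_mul]))⟩

theorem sum_range_mul {M : Type*} [AddCommMonoid M] (f : ℕ → M) (m e : ℕ) :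
    ∑ i ∈ Finset.range (m * e), f i =
      ∑ r ∈ Finset.range m, ∑ s ∈ Finset.range e, f (m * s + r) := by
  rw [Finset.sum_comm]
  induction e with
  | zero => simp
  | succ e ih => rw [mul_add, mul_one, Finset.sum_range_add, ih, Finset.sum_range_succ]

theorem exists_monic {K A : Type*} [Field K] [CommRing A] [IsDomain A] (κ : K →+* A) (a : A)
    {m : ℕ} (hm : 1 ≤ m) {Q : K[X]} (hQ : Q.coeff 0 ≠ 0) :
    ∃ f : A[X], f.Monic ∧ f.natDegree = m * Q.natDegree ∧
      Associated (toLaurent f) (ev κ a m Q) := by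
  set N := m * Q.natDegree with hN
  set G : A[X] := (Q.map κ).comp (C a * X ^ m) with hG
  have hG1 : G.natDegree ≤ N := by
    refine natDegree_comp_le.trans ?_
    rw [hN, mul_comm]
    exact Nat.mul_le_mul (natDegree_C_mul_X_pow_le a m) natDegree_map_le
  have hG2 : G.coeff 0 = κ (Q.coeff 0) := by
    rw [coeff_zero_eq_eval_zero, hG, eval_comp, eval_mul, eval_pow, eval_X, zero_pow (by omega),
      mul_zero, ← coeff_zero_eq_eval_zero, coeff_map]
  have h1 := eval₂_reflect_mul_pow (LaurentPolynomial.C : A →+* LaurentPolynomial A) (T (-1)) N G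
    hG1
  have h2 : ∀ H : A[X], eval₂ LaurentPolynomial.C (T 1) H = toLaurent H := by
    intro H
    have h3 : eval₂RingHom (LaurentPolynomial.C : A →+* LaurentPolynomial A) (T 1) =
        toLaurent := Polynomial.ringHom_ext (by simp) (by simp)
    exact RingHom.congr_fun h3 H
  have h3 : eval₂ LaurentPolynomial.C (T (-1)) G = ev κ a m Q := by
    rw [hG, eval₂_comp, eval₂_map, eval₂_mul, eval₂_C, eval₂_X_pow, T_pow, mul_neg_one]
    rfl
  rw [LaurentPolynomial.invOf_T, neg_neg, h2, h3] at h1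
  have h4 : (C (κ (Q.coeff 0)⁻¹) * reflect N G).coeff N = 1 := by
    rw [coeff_C_mul, coeff_reflect, revAt_le le_rfl, Nat.sub_self, hG2, ← map_mul,
      inv_mul_cancel₀ hQ, map_one]
  have h5 : (C (κ (Q.coeff 0)⁻¹) * reflect N G).natDegree ≤ N :=
    (natDegree_C_mul_le _ _).trans (natDegree_reflect_le.trans (max_le le_rfl hG1))
  refine ⟨_, monic_of_natDegree_le_of_coeff_eq_one N h5 h4,
    natDegree_eq_of_le_of_coeff_ne_zero h5 (by rw [h4]; exact one_ne_zero), ?_⟩
  rw [map_mul, toLaurent_C, ← h1]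
  exact (associated_unit_mul_left _ _ (((inv_ne_zero hQ).isUnit.map κ).map _)).trans
    (associated_mul_unit_right _ _ ((isUnit_T _).pow _))

theorem indep {k : Type*} [Field k] {Q : k[X]} [Fact (Irreducible Q)] (hQ : Q.coeff 0 ≠ 0)
    (c : ℕ → k) (h : ∑ s ∈ Finset.range Q.natDegree,
      AdjoinRoot.of Q (c s) * (AdjoinRoot.root Q)⁻¹ ^ s = 0) : ∀ s < Q.natDegree, c s = 0 := by
  intro s hs
  have h0 : AdjoinRoot.root Q ≠ 0 := fun h0 => by
    have h1 := AdjoinRoot.eval₂_root Q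
    rw [h0, eval₂_at_zero] at h1
    exact hQ ((map_eq_zero _).1 h1)
  set W : k[X] := ∑ s ∈ Finset.range Q.natDegree, monomial s (c s) with hW
  have hW1 : W.natDegree ≤ Q.natDegree - 1 :=
    natDegree_sum_le_of_forall_le _ _ fun i hi => (natDegree_monomial_le _).trans (by
      have := Finset.mem_range.1 hi
      omega)
  have hW2 : eval₂ (AdjoinRoot.of Q) (AdjoinRoot.root Q)⁻¹ W = 0 := by
    rw [hW, eval₂_finsetSum, ← h]
    exact Finset.sum_congr rfl fun i _ => eval₂_monomial _ _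
  let _ : Invertible (AdjoinRoot.root Q)⁻¹ := invertibleOfNonzero (inv_ne_zero h0)
  rw [← eval₂_reflect_eq_zero_iff _ _ _ _ hW1, invOf_eq_inv, inv_inv] at hW2
  have h3 : Q ∣ reflect (Q.natDegree - 1) W := by
    rw [← AdjoinRoot.mk_eq_zero, ← AdjoinRoot.aeval_eq]
    exact hW2
  have h4 := eq_zero_of_dvd_of_natDegree_lt h3
    ((natDegree_reflect_le.trans (max_le le_rfl hW1)).trans_lt (by omega))
  rw [reflect_eq_zero_iff] at h4
  have h5 := congrArg (fun q : k[X] => q.coeff s) h4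
  simpa [hW, coeff_monomial, hs] using h5

theorem prime_low {k τ : Type} [Field k] [Finite τ] (i : τ) {a : MvPowerSeries τ k}
    (ha : Associated a (MvPowerSeries.X i)) {m : ℕ} (hm : 1 ≤ m) {Q : k[X]}
    (hirr : Irreducible Q) (hQ : Q.coeff 0 ≠ 0) :
    (Ideal.span {ev (MvPowerSeries.C : k →+* MvPowerSeries τ k) a m Q}).IsPrime := by
  have hf : Fact (Irreducible Q) := ⟨hirr⟩
  have hd : IsDomain (MvPowerSeries τ k) := NoZeroDivisors.to_isDomain _
  have hd' : IsDomain (MvPowerSeries τ (AdjoinRoot Q)) := NoZeroDivisors.to_isDomain _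
  have h0 : AdjoinRoot.root Q ≠ 0 := fun h0 => by
    have h1 := AdjoinRoot.eval₂_root Q
    rw [h0, eval₂_at_zero] at h1
    exact hQ ((map_eq_zero _).1 h1)
  set ι : MvPowerSeries τ k →+* MvPowerSeries τ (AdjoinRoot Q) :=
    MvPowerSeries.map (AdjoinRoot.of Q) with hι
  set b := ι a * MvPowerSeries.C (AdjoinRoot.root Q)⁻¹ with hb
  have hbX : Associated b (MvPowerSeries.X i) := by
    have h1 := ha.map ι
    rw [hι, MvPowerSeries.map_X] at h1
    exact (associated_mul_unit_left _ _ ((inv_ne_zero h0).isUnit.map _)).trans h1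
  obtain ⟨hS, hu⟩ := root_dom (hbX.prime_iff.2 (N217.prime_X i)) (fun x hx => by
    ext d
    exact MvPowerSeries.X_pow_dvd_iff.1 ((hbX.pow_pow.symm.dvd).trans (hx (d i + 1))) d
      (Nat.lt_succ_self _)) hm
  set g : (MvPowerSeries τ (AdjoinRoot Q))[X] := X ^ m - C b with hg
  set j := algebraMap (AdjoinRoot g) (FractionRing (AdjoinRoot g)) with hj
  have hji : Function.Injective j := IsFractionRing.injective _ _
  have hju : j (AdjoinRoot.root g) ≠ 0 := (map_ne_zero_iff _ hji).2 hu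
  set Θ := LaurentPolynomial.eval₂ (j.comp ((AdjoinRoot.of g).comp ι)) (Units.mk0 _ hju) with hΘ
  have hΘ1 : ∀ G, Θ (toLaurent G) = j (AdjoinRoot.mk g (G.map ι)) := by
    intro G
    rw [hΘ, LaurentPolynomial.eval₂_toLaurent, Units.val_mk0, ← hom_eval₂, ← eval₂_map,
      ← AdjoinRoot.aeval_eq]
    rfl
  have hΘ2 : Θ (ev MvPowerSeries.C a m Q) = 0 := by
    have h1 : Θ.comp (ev MvPowerSeries.C a m) = ((j.comp (AdjoinRoot.of g)).comp
        MvPowerSeries.C).comp (AdjoinRoot.mk Q) := by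
      refine Polynomial.ringHom_ext (fun x => ?_) ?_
      · simp only [RingHom.comp_apply, ev_C, hΘ, LaurentPolynomial.eval₂_C, hι,
          MvPowerSeries.map_C, AdjoinRoot.mk_C]
      · simp only [RingHom.comp_apply, ev_X, hΘ, LaurentPolynomial.eval₂_C_mul_T_neg_n,
          AdjoinRoot.mk_X, Units.val_inv_eq_inv_val, Units.val_mk0]
        rw [inv_pow, mul_inv_eq_iff_eq_mul₀ (pow_ne_zero _ hju), ← map_pow, root_pow, ← map_mul,
          ← map_mul, hb, mul_left_comm, ← map_mul, mul_inv_cancel₀ h0, map_one, mul_one]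
    have h2 := RingHom.congr_fun h1 Q
    rw [RingHom.comp_apply] at h2
    rw [h2, RingHom.comp_apply, AdjoinRoot.mk_self, map_zero]
  obtain ⟨f, f1, f2, f3⟩ := exists_monic (MvPowerSeries.C : k →+* MvPowerSeries τ k) a hm hQ
  have key : ∀ R : (MvPowerSeries τ k)[X], R.natDegree < m * Q.natDegree →
      AdjoinRoot.mk g (R.map ι) = 0 → R = 0 := by
    intro R h1 h2
    set H : (MvPowerSeries τ (AdjoinRoot Q))[X] := ∑ r ∈ Finset.range m, monomial r
      (∑ s ∈ Finset.range Q.natDegree, ι (R.coeff (m * s + r)) * b ^ s) with hH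
    have h3 : H = 0 := by
      refine eq_zero_of_mk (b := b) hm ?_ ?_
      · refine (degree_sum_le _ _).trans_lt ((Finset.sup_lt_iff (WithBot.bot_lt_coe m)).2 ?_)
        exact fun r hr => (degree_monomial_le _ _).trans_lt
          (WithBot.coe_lt_coe.2 (Finset.mem_range.1 hr))
      · rw [← h2, R.as_sum_range' _ h1, Polynomial.map_sum, map_sum, map_sum, sum_range_mul]
        refine Finset.sum_congr rfl fun r _ => ?_
        rw [map_sum, map_sum]
        refine Finset.sum_congr rfl fun s _ => ?_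
        have h4 : AdjoinRoot.root g ^ m = AdjoinRoot.of g b := root_pow b m
        rw [Polynomial.map_monomial, ← C_mul_X_pow_eq_monomial, ← C_mul_X_pow_eq_monomial]
        simp only [map_mul, map_pow, AdjoinRoot.mk_C, AdjoinRoot.mk_X, pow_add, pow_mul]
        rw [← h4]
        ring
    have ha0 : a ≠ 0 := ha.ne_zero_iff.2 (N217.prime_X i).ne_zero
    ext1 l
    by_cases hl : l < m * Q.natDegree
    swap
    · exact coeff_eq_zero_of_natDegree_lt (by omega)
    have h4 := congrArg (fun q => q.coeff (l % m)) h3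
    simp only [hH, finsetSum_coeff, coeff_monomial, Finset.sum_ite_eq', Finset.mem_range,
      Nat.mod_lt l hm, if_true, coeff_zero] at h4
    have h5 : R.coeff (m * (l / m) + l % m) * a ^ (l / m) = 0 := by
      ext d
      refine indep hQ (fun s => MvPowerSeries.coeff d (R.coeff (m * s + l % m) * a ^ s)) ?_ _
        (Nat.div_lt_of_lt_mul hl)
      have h6 := congrArg (MvPowerSeries.coeff d) h4
      rw [map_sum, map_zero] at h6
      rw [← h6]
      refine Finset.sum_congr rfl fun s _ => ?_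
      rw [hb, mul_pow, ← mul_assoc, ← map_pow, ← map_mul, ← map_pow, MvPowerSeries.coeff_mul_C, hι,
        MvPowerSeries.coeff_map]
    rw [Nat.div_add_mod] at h5
    exact (mul_eq_zero.1 h5).resolve_right (pow_ne_zero _ ha0)
  have hker : Ideal.span {ev (MvPowerSeries.C : k →+* MvPowerSeries τ k) a m Q} =
      RingHom.ker Θ := by
    refine le_antisymm ((Ideal.span_singleton_le_iff_mem _).2 hΘ2) fun y hy => ?_
    obtain ⟨l, G, hG⟩ := exists_T_pow y
    have h1 : AdjoinRoot.mk g (G.map ι) = 0 := by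
      rw [← map_eq_zero_iff _ hji, ← hΘ1, hG, map_mul, RingHom.mem_ker.1 hy, zero_mul]
    have h2 : AdjoinRoot.mk g (f.map ι) = 0 := by
      obtain ⟨z, hz⟩ := f3.symm.dvd
      rw [← map_eq_zero_iff _ hji, ← hΘ1, hz, map_mul, hΘ2, zero_mul]
    have h3 : G %ₘ f = 0 := by
      refine key _ ?_ ?_
      · rw [← f2]
        refine natDegree_modByMonic_lt G f1 fun h => ?_
        rw [h, natDegree_one] at f2
        exact mul_ne_zero (by omega) hirr.natDegree_pos.ne' f2.symm
      · rw [modByMonic_eq_sub_mul_div, Polynomial.map_sub, Polynomial.map_mul, map_sub, map_mul,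
          h1, h2, zero_mul, sub_zero]
    rw [modByMonic_eq_zero_iff_dvd f1] at h3
    rw [← Ideal.mul_unit_mem_iff_mem _ (isUnit_T l), ← hG, Ideal.mem_span_singleton]
    exact f3.symm.dvd.trans (map_dvd _ h3)
  rw [hker]
  exact RingHom.ker_isPrime _

end Vale.Agent.N217X
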