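import Vale.Agent.N217.Main
import Vale.Agent.N217X.Prime
import Vale.Agent.N217X.Defs

/-!
# P217: invariant prime ideals of `E₀[u, u⁻¹]`
-/

namespace Vale.Agent.N217Y

open MvPowerSeries Vale.Agent.P217 Vale.Agent.N217 Pointwise
open Vale.Agent.N217X (Tw exists_tw lcore gen gen' prime_top prime_low tw_id ev_zero comap_span
  exists_desc rad_of_irr rad_X rad_C rad_top map_iInf_eq comap_min)

variable {p n : ℕ} [Fact p.Prime] {Γ : FormalGroup (ZMod p)} {F : FormalGroup (E0 p n)}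

/-- `(φ, g)` is an element of the stabilizer group over `σ`. -/
def Pair (F : FormalGroup (E0 p n)) (σ : GaloisField p n ≃+* GaloisField p n)
    (φ : RingAut (E0 p n)) (g : PowerSeries (E0 p n)) : Prop :=
  IsIso (F.map (φ : E0 p n →+* E0 p n)) F g ∧ ∀ y, red p n (φ y) = σ (red p n y)

/-- the coefficient of `X^(p^h)` of the `p`-series. -/
noncomputable def aa (F : FormalGroup (E0 p n)) (h : ℕ) : E0 p n :=
  PowerSeries.coeff (p ^ h) (multSeries F p)

theorem Pair.act {σ φ g} (h : Pair F σ φ g) : H260.ActIso F φ := by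
  obtain ⟨g', hg', -⟩ := h.1.symmC
  exact ⟨g', hg'⟩

theorem chainE (o : Ok Γ F) : H260.Chain (LT.actionGroup p n Γ F) n (heightIdeal p n) := by
  have hJ := P217B7.chai_all o.hn o.hc o.hΓ o.hF o.hH
  have hinv : ∀ J : Ideal (E0 p n),
      IsInvariant p n F J ↔ ∀ g : LT.actionGroup p n Γ F, g • J = J :=
    fun J => ⟨fun h g => by
      obtain ⟨g', hg'⟩ := (mem_act o.hF _).1 g.2
      exact h _ g' hg', fun h φ g hg => h ⟨φ, (mem_act o.hF _).2 ⟨g, hg⟩⟩⟩
  refine ⟨fun J h1 h2 => ((hJ J).2).1 ⟨h1, (hinv J).2 h2⟩, fun h hh => ?_, fun h hh g => ?_,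
    fun h h' hle _ => H260.heightIdeal_mono hle⟩
  · exact (((hJ _).1).2 ⟨h, hh, rfl⟩).1
  · exact (hinv _).1 (((hJ _).1).2 ⟨h, hh, rfl⟩).2 g

/-- the automorphisms which induce the identity on the residue field. -/
def UU (p n : ℕ) [Fact p.Prime] : Subgroup (RingAut (E0 p n)) where
  carrier := {φ | ∀ y, red p n (φ y) = red p n y}
  one_mem' := fun _ => rfl
  mul_mem' := fun {_ ψ} h1 h2 y => (h1 (ψ y)).trans (h2 y)
  inv_mem' := fun {φ} h y => (h _).symm.trans (congrArg _ (φ.apply_symm_apply y))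

theorem UU_index (o : Ok Γ F) : ((UU p n).subgroupOf (LT.actionGroup p n Γ F)).FiniteIndex := by
  have hle : LT.congruenceGroup p n Γ F 0 ≤ UU p n := by
    refine (Subgroup.closure_le _).2 ?_
    rintro φ ⟨γ, -, -, g, h, -⟩
    exact RingHom.congr_fun h
  have h1 : ((LT.congruenceGroup p n Γ F 0).subgroupOf (LT.actionGroup p n Γ F)).FiniteIndex :=
    ⟨H260.congruence_index o.hF 0⟩
  exact Subgroup.finiteIndex_of_le (Subgroup.subgroupOf_mono _ hle)

theorem UU_pair (o : Ok Γ F) {u : LT.actionGroup p n Γ F}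
    (hu : u ∈ (UU p n).subgroupOf (LT.actionGroup p n Γ F)) :
    ∃ g, Pair F (RingEquiv.refl _) u.1 g := by
  obtain ⟨g, hg⟩ := (mem_act o.hF _).1 u.2
  obtain ⟨g', hg', -⟩ := hg.symmC
  exact ⟨g', hg', hu⟩

theorem rad (o : Ok Γ F) {J : Ideal (E0 p n)} (hr : J.IsRadical)
    (hs : ∀ φ g, Pair F (RingEquiv.refl _) φ g → ∀ x ∈ J, φ x ∈ J) :
    J = ⊤ ∨ ∃ h ≤ n, J = heightIdeal p n h := by
  have h2 := UU_index o
  have h3 : ∀ u ∈ (UU p n).subgroupOf (LT.actionGroup p n Γ F), ∀ x ∈ J, u.1 x ∈ J := by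
    intro u hu
    obtain ⟨g, hg⟩ := UU_pair o hu
    exact hs _ g hg
  refine (chainE o).radical_of ((UU p n).subgroupOf _) hr fun u hu => ?_
  refine (H260.smul_eq_map _ u J).trans ?_
  refine le_antisymm (Ideal.map_le_iff_le_comap.2 (h3 u hu)) fun x hx => ?_
  have h4 := Ideal.mem_map_of_mem ((u : RingAut (E0 p n)) : E0 p n →+* E0 p n)
    (h3 _ (Subgroup.inv_mem _ hu) x hx)
  convert h4
  exact (u.1.apply_symm_apply x).symm

theorem fin_prime (o : Ok Γ F) {M : Set (Ideal (E0 p n))} (hM : M.Finite)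
    (hs : ∀ φ g, Pair F (RingEquiv.refl _) φ g → ∀ J ∈ M,
      J.comap (φ : E0 p n →+* E0 p n) ∈ M) {J : Ideal (E0 p n)} (hJ : J ∈ M) (hP : J.IsPrime) :
    ∃ h ≤ n, J = heightIdeal p n h := by
  have h2 := UU_index o
  refine (chainE o).of_finite_set ((UU p n).subgroupOf _) hM (fun u hu Q hQ => ?_) hJ hP
  obtain ⟨g, hg⟩ := UU_pair o (Subgroup.inv_mem _ hu)
  exact Set.mem_of_eq_of_mem ((H260.smul_eq_map _ u Q).trans (Ideal.map_comap_of_equiv u.1))
    (hs _ g hg Q hQ)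

theorem map_I (o : Ok Γ F) {h : ℕ} (hle : h ≤ n) {σ φ g} (a : Pair F σ φ g) :
    (heightIdeal p n h).map (φ : E0 p n →+* E0 p n) = heightIdeal p n h :=
  (chainE o).inv h hle ⟨φ, (mem_act o.hF _).2 a.act⟩

theorem low (o : Ok Γ F) {h : ℕ} (hle : h ≤ n) {j : ℕ} (hj : j < p ^ h) :
    PowerSeries.coeff j (multSeries F p) ∈ heightIdeal p n h := by
  rcases Nat.eq_zero_or_pos h with rfl | hh
  · rw [pow_zero, Nat.lt_one_iff] at hj
    rw [hj, PowerSeries.coeff_zero_eq_constantCoeff_apply, FPt.constantCoeff_multSeries]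
    exact Ideal.zero_mem _
  · exact low_mem o.hH hh hle hj

theorem cocyc (o : Ok Γ F) {h : ℕ} (hle : h ≤ n) {A : Type} [CommRing A] [IsDomain A]
    {π : E0 p n →+* A} (hk : RingHom.ker π = heightIdeal p n h) {σ φ g} (a : Pair F σ φ g) :
    π (φ (aa F h)) = π (aa F h) * π (PowerSeries.coeff 1 g) ^ (p ^ h - 1) := by
  have h1 := cocycle0 (h := h) a.1 π (fun j hj => by
    rw [← C0.map_multSeries, PowerSeries.coeff_map, ← RingHom.mem_ker, hk, ← map_I o hle a]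
    exact Ideal.mem_map_of_mem _ (low o hle hj)) fun j hj => by
    rw [← RingHom.mem_ker, hk]
    exact low o hle hj
  rwa [← C0.map_multSeries, PowerSeries.coeff_map] at h1

/-- `P` contains `I_h` and is saturated for the elements outside `I_h`. -/
def Sat (h : ℕ) (P : Ideal (LaurentPolynomial (E0 p n))) : Prop :=
  (heightIdeal p n h).map LaurentPolynomial.C ≤ P ∧
    ∀ x y, x ∉ heightIdeal p n h → LaurentPolynomial.C x * y ∈ P → y ∈ P

theorem sat_of_prime {h : ℕ} {P : Ideal (LaurentPolynomial (E0 p n))} (hP : P.IsPrime)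
    (hJ : P.comap LaurentPolynomial.C = heightIdeal p n h) : Sat h P :=
  ⟨Ideal.map_le_iff_le_comap.2 hJ.ge, fun _ _ hx h =>
    (hP.mem_or_mem h).resolve_left fun h1 => hx (hJ.le h1)⟩

theorem comap_map {R S : Type} [CommRing R] [CommRing S] {f : R →+* S}
    (hf : Function.Surjective f) {P : Ideal R} (h : RingHom.ker f ≤ P) :
    (P.map f).comap f = P := by
  rw [Ideal.comap_map_of_surjective _ hf]
  exact sup_eq_left.2 h

theorem level (o : Ok Γ F) {h : ℕ} (hle : h ≤ n) {A K : Type} [CommRing A] [IsDomain A]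
    [CommRing K] {π : E0 p n →+* A} (hs : Function.Surjective π)
    (hk : RingHom.ker π = heightIdeal p n h) (κ : K →+* A) (ha : π (aa F h) ≠ 0)
    (hw : ∀ x i b, i < b → (∀ φ g, Pair F (RingEquiv.refl _) φ g →
      π (φ x) * π (PowerSeries.coeff 1 g) ^ i = π x * π (PowerSeries.coeff 1 g) ^ b) →
      π x = 0 ∨ ∃ l c, b = i + (p ^ h - 1) * l ∧ π x = κ c * π (aa F h) ^ l)
    {Θ} (hΘ : Tw π 1 Θ) {P : Ideal (LaurentPolynomial (E0 p n))}
    (hinv : ∀ φ g Φ, Pair F (RingEquiv.refl _) φ g →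
      Tw (φ : E0 p n →+* E0 p n) (PowerSeries.coeff 1 g) Φ → ∀ y ∈ P, Φ y ∈ P)
    (hJ : Sat h P) :
    ∃ Q, P.map Θ = Ideal.span {N217X.ev κ (π (aa F h)) (p ^ h - 1) Q} := by
  have hp : p.Prime := Fact.out
  have hker : RingHom.ker Θ ≤ P := by
    rw [hΘ.ker, hk]
    exact hJ.1
  have hex : ∀ j : {x : RingAut (E0 p n) × PowerSeries (E0 p n) //
      Pair F (RingEquiv.refl _) x.1 x.2}, ∃ ψ : A →+* A, ∀ x, ψ (π x) = π (j.1.1 x) := fun j =>
    exists_desc hs (j.1.1 : E0 p n →+* E0 p n) fun x hx => by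
      rw [hk] at hx ⊢
      rw [← map_I o hle j.2]
      exact Ideal.mem_map_of_mem _ hx
  choose ψ hψ using hex
  refine lcore ψ (fun j => π (PowerSeries.coeff 1 j.1.2)) (fun j => j.2.1.2.map π) κ ha _
    (fun j => by rw [hψ, cocyc o hle hk j.2]) (fun L h0 hL => ?_) (fun x i b hib H => ?_) _
    (fun j Ψ hΨ y hy => ?_) fun x y hx hy => ?_
  · suffices aa F h ∈ (L.comap π).radical by
      obtain ⟨N, hN⟩ := this
      exact ⟨N, by rwa [← map_pow]⟩
    rcases rad o (Ideal.radical_isRadical (L.comap π)) (by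
      rintro φ g a x ⟨N, hN⟩
      refine ⟨N, ?_⟩
      rw [← map_pow, Ideal.mem_comap, ← hψ ⟨(φ, g), a⟩]
      exact hL _ _ hN) with h1 | ⟨h', h1, h2⟩
    · rw [h1]
      exact Submodule.mem_top
    rw [h2]
    refine low o h1 (Nat.pow_lt_pow_right hp.one_lt (not_le.1 fun h3 => h0 ?_))
    rw [eq_bot_iff]
    intro y hy
    obtain ⟨x, rfl⟩ := hs y
    have h4 : x ∈ heightIdeal p n h' := h2 ▸ Ideal.le_radical hy
    have h5 := H260.heightIdeal_mono h3 h4
    rwa [← hk] at h5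
  · obtain ⟨x, rfl⟩ := hs x
    exact hw x i b hib fun φ g a => by rw [← hψ ⟨(φ, g), a⟩]; exact H _
  · obtain ⟨x, hx, rfl⟩ := (Ideal.mem_map_iff_of_surjective _ (hΘ.surj hs)).1 hy
    obtain ⟨Φ, hΦ⟩ := exists_tw (j.1.1 : E0 p n →+* E0 p n) j.2.1.2
    have h1 : Ψ.comp Θ = Θ.comp Φ := by
      refine (hΘ.comp hΨ).unique ?_
      convert hΦ.comp hΘ using 1
      · exact RingHom.ext (hψ j)
      · rw [map_one, one_mul, mul_one]
    rw [← RingHom.comp_apply, h1]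
    exact Ideal.mem_map_of_mem _ (hinv _ _ Φ j.2 hΦ x hx)
  · obtain ⟨x, rfl⟩ := hs x
    obtain ⟨y, rfl⟩ := hΘ.surj hs y
    rw [← hΘ.1, ← map_mul, ← Ideal.mem_comap, comap_map (hΘ.surj hs) hker] at hy
    exact Ideal.mem_map_of_mem _ (hJ.2 x y (by rwa [← hk]) hy)

theorem p_ne_zero : (p : E0 p n) ≠ 0 := by
  rw [← map_natCast C p]
  intro h
  exact WittVector.p_nonzero p _ (C_injective (h.trans (map_zero _).symm))

theorem zero_case (o : Ok Γ F) {P : Ideal (LaurentPolynomial (E0 p n))}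
    (hinv : ∀ φ g Φ, Pair F (RingEquiv.refl _) φ g →
      Tw (φ : E0 p n →+* E0 p n) (PowerSeries.coeff 1 g) Φ → ∀ y ∈ P, Φ y ∈ P)
    (hJ : Sat 0 P) : P = ⊥ ∨ P = ⊤ := by
  have hp : p.Prime := Fact.out
  have hdom : IsDomain (E0 p n) := NoZeroDivisors.to_isDomain _
  have hc := o.hF.comm
  have hch : CharZero (E0 p n) := by
    refine charZero_of_inj_zero fun m hm0 => ?_
    by_contra hm1
    obtain ⟨t, ht⟩ := C0.natCast_dvd_pow hp (C0.p_mem_maximalIdeal_E0 (p := p) (n := n)) hm1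
    rw [hm0, zero_mul] at ht
    exact pow_ne_zero _ p_ne_zero ht
  have hI : heightIdeal p n 0 = ⊥ := if_pos rfl
  have hw : ∀ (x : E0 p n) (i b : ℕ), i < b → (∀ φ g, Pair F (RingEquiv.refl _) φ g →
      φ x * PowerSeries.coeff 1 g ^ i = x * PowerSeries.coeff 1 g ^ b) → x = 0 := by
    intro x i b hib H
    have h0 : F.map ((1 : RingAut (E0 p n)) : E0 p n →+* E0 p n) = F := C0.FG_map_id
    have h1 := H 1 (multSeries F (1 + p)) ⟨by
      rw [h0]
      refine ⟨C0.isHom_multSeries _, ?_⟩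
      rw [C0.coeff_one_multSeries, Nat.cast_add, Nat.cast_one]
      exact (IsLocalRing.isUnit_or_isUnit_of_add_one (show (1 + p) + (-p : E0 p n) = 1 by
        ring)).resolve_right fun h => C0.p_mem_maximalIdeal_E0 ((IsUnit.neg_iff _).1 h),
      fun _ => rfl⟩
    rw [C0.coeff_one_multSeries] at h1
    by_contra hx
    have h2 : ((1 + p : ℕ) : E0 p n) ^ i = ((1 + p : ℕ) : E0 p n) ^ b := mul_left_cancel₀ hx h1
    rw [← Nat.cast_pow, ← Nat.cast_pow, Nat.cast_inj] at h2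
    have := Nat.pow_right_injective (show 2 ≤ 1 + p by have := hp.two_le; omega) h2
    omega
  obtain ⟨Q, hQ⟩ := level o (Nat.zero_le n) (π := RingHom.id _) Function.surjective_id
    (((RingHom.injective_iff_ker_eq_bot _).1 Function.injective_id).trans hI.symm)
    (RingHom.id _) (by
      rw [aa, pow_zero, C0.coeff_one_multSeries]
      exact p_ne_zero) (fun x i b hib H => Or.inl (hw x i b hib H)) tw_id hinv hJ
  rw [Ideal.map_id, pow_zero, Nat.sub_self, ev_zero] at hQ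
  by_cases h1 : Q.eval₂ (RingHom.id _) (RingHom.id _ (aa F 0)) = 0
  · left
    rw [hQ, h1, map_zero, Ideal.span_singleton_zero]
  · refine Or.inr ((Ideal.eq_top_iff_one _).2 (hJ.2 _ 1 (by rwa [hI, Ideal.mem_bot]) ?_))
    rw [mul_one, hQ]
    exact Ideal.subset_span rfl

theorem exists_teich (o : Ok Γ F) {c : GaloisField p n} (hc : c ≠ 0) :
    ∃ φ g, Pair F (RingEquiv.refl _) φ g ∧ red p n (PowerSeries.coeff 1 g) * c = 1 := by
  obtain ⟨H, hH⟩ := exists_isHonda (p := p) o.hn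
  obtain ⟨⟨v, hv, v1⟩, w, hw, w1⟩ := P217B7.iso_honda o.hn o.hc o.hΓ hH
  have h0 := isHom_frob (hH.hondaLike o.hn (GaloisField p n) (algebraMap (ZMod p) _))
    (galois_pow o.hn c) 0
  have h1 : PowerSeries.coeff 1 (PowerSeries.C c * PowerSeries.X ^ p ^ 0) = c := by simp
  have h2 := ((hv.mapC (algebraMap (ZMod p) (GaloisField p n))).compC
    ⟨h0, by rw [h1]; exact hc.isUnit⟩)
  obtain ⟨φ, g, a1, a2, a3⟩ := exists_phi o.hF _ (h2.compC (hw.mapC _))
  obtain ⟨g', b1, b2, -⟩ := a2.symmC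
  refine ⟨φ, g', ⟨b1, RingHom.congr_fun a1⟩, ?_⟩
  have h3 := congrArg (red p n) (lin_inv a2.1.1 b2)
  have h4 := congrArg (PowerSeries.coeff 1) a3
  rw [C0.coeff_one_subst h2.1.1, C0.coeff_one_subst (hv.mapC _).1.1, h1, PowerSeries.coeff_map,
    PowerSeries.coeff_map, PowerSeries.coeff_map, v1, w1, map_one, one_mul, mul_one] at h4
  rwa [map_mul, map_one, h4, mul_comm] at h3

theorem mem_I {h : ℕ} (hh : 1 ≤ h) (hle : h ≤ n) (x : E0 p n) :
    kl n (GaloisField p n) h hh hle (toFibre p n (RingHom.id _) x) = piH p n h hh hle x := by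
  rw [kl_toFibre, MvPowerSeries.map_id]
  rfl

/-- the data on the stratum of height `h`. -/
structure Lev (F : FormalGroup (E0 p n)) (h : ℕ) {A : Type} [CommRing A] (π : E0 p n →+* A)
    (κ : GaloisField p n →+* A) : Prop where
  surj : Function.Surjective π
  ker : RingHom.ker π = heightIdeal p n h
  ne : π (aa F h) ≠ 0
  gal : ∀ σ φ g, Pair F σ φ g → ∀ w, π (φ (C w)) = κ (σ (WittVector.constantCoeff w))
  wt : ∀ x i b, i < b → (∀ φ g, Pair F (RingEquiv.refl _) φ g →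
    π (φ x) * π (PowerSeries.coeff 1 g) ^ i = π x * π (PowerSeries.coeff 1 g) ^ b) →
    π x = 0 ∨ ∃ l c, b = i + (p ^ h - 1) * l ∧ π x = κ c * π (aa F h) ^ l
  prime : ∀ Q : Polynomial (GaloisField p n), Q.coeff 0 ≠ 0 →
    Irreducible (Polynomial.expand _ (if h = n then p ^ n - 1 else 1) Q) →
    (Ideal.span {N217X.ev κ (π (aa F h)) (p ^ h - 1) Q}).IsPrime
  irr : ∀ Q : Polynomial (GaloisField p n), Q.coeff 0 ≠ 0 → Irreducible Q →
    (Ideal.span {N217X.ev κ (π (aa F h)) (p ^ h - 1) Q}).IsPrime →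
    Irreducible (Polynomial.expand _ (if h = n then p ^ n - 1 else 1) Q)
  rad : ∀ Q : Polynomial (GaloisField p n), Irreducible Q →
    IsRadical (N217X.ev κ (π (aa F h)) (p ^ h - 1) Q)

theorem one_le_m {h : ℕ} (hh : 1 ≤ h) : 1 ≤ p ^ h - 1 := by
  have := Nat.one_lt_pow (show h ≠ 0 by omega) (Fact.out : p.Prime).one_lt
  omega

theorem lev_top (o : Ok Γ F) : Lev F n (red p n) (RingHom.id _) := by
  have h1 : red p n (aa F n) = 1 := by
    rw [aa, ← PowerSeries.coeff_map, C0.map_multSeries, o.hF.reduction, ← C0.map_multSeries, o.hΓ,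
      map_pow, PowerSeries.map_X, PowerSeries.coeff_X_pow_self]
  refine ⟨C0.red_surjective, ?_, by rw [h1]; exact one_ne_zero, fun σ φ g a w => ?_,
    fun x i b hib H => ?_, fun Q h2 h3 => ?_, fun Q h2 _ h3 => ?_, fun Q h2 => ?_⟩
  · ext x
    rw [← ker_piH n o.hn le_rfl, RingHom.mem_ker, RingHom.mem_ker, ← mem_I, kl_eq_zero,
      mem_fibre_top o.hn, cc_toFibre, RingHom.id_apply]
  · rw [a.2, red, RingHom.comp_apply, constantCoeff_C, RingHom.id_apply]
  · refine or_iff_not_imp_left.2 fun hx => ?_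
    obtain ⟨d, rfl⟩ := Nat.exists_eq_add_of_le hib.le
    have := Fintype.ofFinite (GaloisField p n)
    obtain ⟨l, hl⟩ := (FiniteField.forall_pow_eq_one_iff (GaloisField p n) d).1 fun c => by
      obtain ⟨φ, g, a, h2⟩ := exists_teich o c.ne_zero
      have h3 := H φ g a
      rw [a.2] at h3
      have h4 : red p n (PowerSeries.coeff 1 g) ^ i = red p n (PowerSeries.coeff 1 g) ^ (i + d) :=
        mul_left_cancel₀ hx h3
      rw [pow_add, eq_comm, mul_eq_left₀ (pow_ne_zero _ (left_ne_zero_of_mul_eq_one h2))] at h4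
      have h5 := congrArg (· ^ d) h2
      simp only [mul_pow, h4, one_mul, one_pow] at h5
      exact Units.ext h5
    rw [← Nat.card_eq_fintype_card, GaloisField.card p n (by have := o.hn; omega)] at hl
    exact ⟨l, red p n x, by rw [hl], by rw [h1, one_pow, mul_one, RingHom.id_apply]⟩
  · rw [if_pos rfl] at h3
    rwa [h1, prime_top (one_le_m o.hn) h2]
  · rwa [if_pos rfl, ← prime_top (one_le_m o.hn) h2, ← h1]
  · rw [h1]
    refine rad_top ?_ h2
    rw [Nat.cast_sub (Nat.one_le_pow _ _ (Fact.out : p.Prime).pos), Nat.cast_pow,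
      CharP.cast_eq_zero, zero_pow (by have := o.hn; omega), zero_sub, Nat.cast_one]
    exact neg_ne_zero.2 one_ne_zero

theorem lev_low (o : Ok Γ F) {h : ℕ} (hh : 1 ≤ h) (hlt : h < n) :
    Lev F h (piH p n h hh hlt.le) C := by
  have hle := hlt.le
  have h1 : Associated (piH p n h hh hle (aa F h)) (X ⟨0, Nat.sub_pos_of_lt hlt⟩) := by
    rw [← mem_I]
    exact kl_vv o _ hh hlt
  refine ⟨piH_surjective h hh hle, ker_piH h hh hle, h1.ne_zero_iff.2 (prime_X _).ne_zero,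
    fun σ φ g a w => ?_, fun x i b hib H => ?_, fun Q h2 h3 => ?_, fun Q h2 h3 _ => ?_,
    fun Q h2 => ?_⟩
  · have h2 : (piH p n h hh hle (φ (C w))) ^ p ^ n = piH p n h hh hle (φ (C w)) := by
      have h3 : WittVector.constantCoeff (w ^ p ^ n - w) = 0 := by
        rw [map_sub, map_pow, galois_pow o.hn, sub_self]
      obtain ⟨y, hy⟩ := Ideal.mem_span_singleton.1
        ((WittVector.mem_span_p_iff_coeff_zero_eq_zero (w ^ p ^ n - w)).2 h3)
      have h4 : piH p n h hh hle p = 0 := by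
        rw [← mem_I, toFibre_p, map_zero]
      rw [← sub_eq_zero, ← map_pow, ← map_pow, ← map_pow, ← map_sub, ← map_sub, ← map_sub, hy,
        map_mul, map_mul, map_mul, map_natCast, map_natCast, h4, zero_mul]
    rw [eq_C_of_pow_eq (p := p) o.hn h2, constantCoeff_piH, a.2, red, RingHom.comp_apply,
      constantCoeff_C]
  · refine ((gradedK o (RingHom.id _) hh hlt i b (toFibre p n (RingHom.id _) x)).1
      fun γ φ g ψ hL e => ?_).imp (fun h2 => ?_) ?_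
    · have h2 := H φ g ⟨LTC.isIso_iff.1 hL.2.1, e.red⟩
      rw [← kl_eq_zero hh hle, e x]
      simp only [map_sub, map_mul, map_pow, mem_I]
      exact sub_eq_zero.2 h2
    · rwa [← kl_eq_zero hh hle, mem_I] at h2
    · rintro ⟨l, c, h2, h3⟩
      refine ⟨l, c, h2, ?_⟩
      have h4 : kl n (GaloisField p n) h hh hle (C c) = C c := (kl n _ h hh hle).commutes c
      rwa [← kl_eq_zero hh hle, map_sub, map_mul, map_pow, vv, mem_I, mem_I, h4,
        sub_eq_zero] at h3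
  · rw [if_neg hlt.ne, Polynomial.expand_one] at h3
    exact prime_low _ h1 (one_le_m hh) h3 h2
  · rwa [if_neg hlt.ne, Polynomial.expand_one]
  · by_cases h3 : Q.coeff 0 = 0
    · exact rad_X _ (rad_C (h1.prime_iff.2 (prime_X _))) _ h2 h3
    · exact isRadical_iff_span_singleton.2 (prime_low _ h1 (one_le_m hh) h2 h3).isRadical

theorem exists_lev (o : Ok Γ F) {h : ℕ} (hh : 1 ≤ h) (hle : h ≤ n) :
    ∃ (A : Type) (_ : CommRing A) (_ : IsDomain A) (π : E0 p n →+* A)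
      (κ : GaloisField p n →+* A), Lev F h π κ := by
  rcases hle.eq_or_lt with rfl | hlt
  · exact ⟨_, _, inferInstance, _, _, lev_top o⟩
  · exact ⟨_, _, NoZeroDivisors.to_isDomain _, _, _, lev_low o hh hlt⟩

theorem pair_one : Pair F (RingEquiv.refl _) 1 PowerSeries.X := by
  have h0 : F.map ((1 : RingAut (E0 p n)) : E0 p n →+* E0 p n) = F := C0.FG_map_id
  exact ⟨by rw [h0]; exact C0.isIso_X, fun _ => rfl⟩

theorem Lev.ev_eq {h : ℕ} {A : Type} [CommRing A] [IsDomain A] {π : E0 p n →+* A} {κ}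
    (L : Lev F h π κ) (o : Ok Γ F) (hle : h ≤ n) {Θ} (hΘ : Tw π 1 Θ) {σ φ g Φ} (a : Pair F σ φ g)
    (hΦ : Tw (φ : E0 p n →+* E0 p n) (PowerSeries.coeff 1 g) Φ)
    (Q : Polynomial (WittVector p (GaloisField p n))) :
    Θ (Φ (N217X.ev C (aa F h) (p ^ h - 1) Q)) = N217X.ev κ (π (aa F h)) (p ^ h - 1)
      ((Q.map WittVector.constantCoeff).map (σ : GaloisField p n →+* GaloisField p n)) := by
  rw [Polynomial.map_map]
  exact (hΦ.comp hΘ).ev (L.gal σ φ g a) (by rw [mul_one]; exact cocyc o hle L.ker a) Q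

theorem Lev.ev_one {h : ℕ} {A : Type} [CommRing A] {π : E0 p n →+* A} {κ}
    (L : Lev F h π κ) {Θ} (hΘ : Tw π 1 Θ) (Q : Polynomial (WittVector p (GaloisField p n))) :
    Θ (N217X.ev C (aa F h) (p ^ h - 1) Q) =
      N217X.ev κ (π (aa F h)) (p ^ h - 1) (Q.map WittVector.constantCoeff) :=
  hΘ.ev (L.gal _ _ _ pair_one) (by rw [one_pow, mul_one]) Q

theorem pair_of_acts (o : Ok Γ F) {σ : GaloisField p n ≃+* GaloisField p n} {γ φ g}
    (hγ : LT.IsIso (LT.base p n Γ) (LT.base p n Γ) γ)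
    (hL : LT.Lifts (red p n) (red p n) (σ : GaloisField p n →+* GaloisField p n) γ F F φ g) :
    ∃ φ' : RingAut (E0 p n), φ = φ' ∧ Pair F σ φ' g := by
  obtain ⟨φ', -, h⟩ := LTC.acts_iff o.hF σ γ hγ
  obtain rfl := (h φ).1 ⟨hγ, g, hL⟩
  exact ⟨φ', rfl, LTC.isIso_iff.1 hL.2.1, RingHom.congr_fun hL.1⟩

theorem Pair.acts (o : Ok Γ F) {σ φ g} (a : Pair F σ φ g) :
    LT.IsIso (LT.base p n Γ) (LT.base p n Γ) (g.map (red p n)) ∧
      LT.Lifts (red p n) (red p n) (σ : GaloisField p n →+* GaloisField p n) (g.map (red p n))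
        F F (φ : E0 p n →+* E0 p n) g := by
  have s1 : (red p n).comp (φ : E0 p n →+* E0 p n) =
      (σ : GaloisField p n →+* GaloisField p n).comp (red p n) := RingHom.ext a.2
  refine ⟨?_, s1, LTC.isIso_iff.2 a.1, rfl⟩
  have h := a.1.mapC (red p n)
  rw [C0.FG_map_map, s1, ← C0.FG_map_map, o.hF.reduction, AC.gamma_map] at h
  exact LTC.isIso_iff.2 h

theorem exists_pair (o : Ok Γ F) (σ : GaloisField p n ≃+* GaloisField p n) {γ}
    (hγ : LT.IsIso (LT.base p n Γ) (LT.base p n Γ) γ) :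
    ∃ φ g, Pair F σ φ g ∧ g.map (red p n) = γ := by
  obtain ⟨φ, -, h⟩ := LTC.acts_iff o.hF σ γ hγ
  obtain ⟨-, g, hL⟩ := (h _).2 rfl
  exact ⟨φ, g, ⟨LTC.isIso_iff.1 hL.2.1, RingHom.congr_fun hL.1⟩, hL.2.2⟩

theorem Pair.unique (o : Ok Γ F) {σ φ φ' g g'} (a : Pair F σ φ g) (b : Pair F σ φ' g')
    (h : g.map (red p n) = g'.map (red p n)) :
    (φ : E0 p n →+* E0 p n) = φ' ∧ g = g' := by
  have := CA.isAdicComplete_E0 (p := p) (n := n)
  obtain ⟨i, hi⟩ := C0.exists_factor_red (IsLocalRing.residue (E0 p n)) (by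
    rw [IsLocalRing.ker_residue])
  obtain ⟨u, hu, k1, k2⟩ := b.1.symmC
  have e : ∀ {φ g}, Pair F σ φ g → (IsLocalRing.residue (E0 p n)).comp (φ : E0 p n →+* E0 p n) =
      (i.comp (σ : GaloisField p n →+* GaloisField p n)).comp (red p n) := fun a => by
    rw [← hi]
    exact RingHom.ext fun x => congrArg i (a.2 x)
  obtain ⟨h1, h2⟩ := C0.rigid o.hF _ (e a) (e b) (a.1.compC hu) (by
    rw [← hi, ← C0.ps_map_comp, C0.ps_map_subst _ a.1.1.1, h, ← C0.ps_map_subst _ b.1.1.1, k1,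
      PowerSeries.map_X, PowerSeries.map_X])
  have h3 := congrArg (fun s : PowerSeries (E0 p n) =>
    (PowerSeries.subst g s : PowerSeries (E0 p n))) k2
  rw [PowerSeries.subst_comp_subst_apply (C0.hasSubst_of_cc hu.1.1) (C0.hasSubst_of_cc a.1.1.1),
    h2, PowerSeries.subst_X (C0.hasSubst_of_cc a.1.1.1), PowerSeries.X_subst] at h3
  exact ⟨h1, h3.symm⟩

/-- the ideal `I_h + (Q(v_h))`. -/
noncomputable def vI (F : FormalGroup (E0 p n)) (h : ℕ)
    (Q : Polynomial (WittVector p (GaloisField p n))) : Ideal (LaurentPolynomial (E0 p n)) :=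
  (heightIdeal p n h).map LaurentPolynomial.C ⊔ Ideal.span {N217X.ev C (aa F h) (p ^ h - 1) Q}

/-- the reduction of `Q` is fixed by `S`. -/
def Fix (S : Set (GaloisField p n ≃+* GaloisField p n))
    (Q : Polynomial (WittVector p (GaloisField p n))) : Prop :=
  ∀ σ ∈ S, (Q.map WittVector.constantCoeff).map (σ : GaloisField p n →+* GaloisField p n) =
    Q.map WittVector.constantCoeff

theorem Lev.vI_eq {h : ℕ} {A : Type} [CommRing A] {π : E0 p n →+* A} {κ} (L : Lev F h π κ) {Θ}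
    (hΘ : Tw π 1 Θ) (Q : Polynomial (WittVector p (GaloisField p n))) :
    vI F h Q = (Ideal.span {N217X.ev κ (π (aa F h)) (p ^ h - 1)
      (Q.map WittVector.constantCoeff)}).comap Θ := by
  rw [vI, ← L.ker, ← hΘ.ker, ← comap_span (hΘ.surj L.surj), L.ev_one hΘ]

theorem vI_inv (o : Ok Γ F) {h : ℕ} (h0 : 1 ≤ h) (hle : h ≤ n) {S Q} (hQ : Fix S Q) {σ}
    (hσ : σ ∈ S) {φ g Φ} (a : Pair F σ φ g)
    (b : Tw (φ : E0 p n →+* E0 p n) (PowerSeries.coeff 1 g) Φ) : (vI F h Q).map Φ = vI F h Q := by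
  obtain ⟨A, _, _, π, κ, L⟩ := exists_lev o h0 hle
  obtain ⟨Θ, hΘ⟩ := exists_tw π isUnit_one
  rw [vI, Ideal.map_sup, b.map_map, map_I o hle a, Ideal.map_span, Set.image_singleton, ← L.ker,
    ← hΘ.ker, ← comap_span (hΘ.surj L.surj), ← comap_span (hΘ.surj L.surj), L.ev_eq o hle hΘ a b,
    hQ σ hσ, L.ev_one hΘ]

theorem Lev.main {h : ℕ} {A : Type} [CommRing A] [IsDomain A] {π : E0 p n →+* A} {κ}
    (L : Lev F h π κ) (o : Ok Γ F) (hle : h ≤ n) {Θ} (hΘ : Tw π 1 Θ)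
    {S : Set (GaloisField p n ≃+* GaloisField p n)} (hS : RingEquiv.refl _ ∈ S)
    {P : Ideal (LaurentPolynomial (E0 p n))} (hst : ∀ σ ∈ S, ∀ φ g Φ, Pair F σ φ g →
      Tw (φ : E0 p n →+* E0 p n) (PowerSeries.coeff 1 g) Φ → ∀ y ∈ P, Φ y ∈ P) (hJ : Sat h P) :
    RingHom.ker Θ ≤ P ∧ ∃ Q, Fix S Q ∧ P = vI F h Q ∧
      (P.map Θ).comap (N217X.ev κ (π (aa F h)) (p ^ h - 1)) =
        Ideal.span {Q.map WittVector.constantCoeff} ∧
      P.map Θ = Ideal.span {N217X.ev κ (π (aa F h)) (p ^ h - 1)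
        (Q.map WittVector.constantCoeff)} := by
  have hker : RingHom.ker Θ ≤ P := by
    rw [hΘ.ker, L.ker]
    exact hJ.1
  obtain ⟨Q, hQ⟩ := level o hle L.surj L.ker κ L.ne L.wt hΘ (hst _ hS) hJ
  obtain ⟨Q₀, q1, q2, q3⟩ := gen' _ hQ
  obtain ⟨Q₁, rfl⟩ := Polynomial.map_surjective _ (WittVector.constantCoeff_surjective p) Q₀
  have hP1 : P = vI F h Q₁ := by
    rw [L.vI_eq hΘ, ← q2, comap_map (hΘ.surj L.surj) hker]
  refine ⟨hker, Q₁, fun σ hσ => q3 _ ?_, hP1, q1, q2⟩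
  obtain ⟨φ, g, a, -⟩ := exists_pair o σ (LTC.isIso_iff.2 C0.isIso_X)
  obtain ⟨Φ, hΦ⟩ := exists_tw (φ : E0 p n →+* E0 p n) a.1.2
  rw [← L.ev_eq o hle hΘ a hΦ]
  refine Ideal.mem_map_of_mem _ (hst σ hσ φ g Φ a hΦ _ ?_)
  rw [hP1]
  exact Ideal.mem_sup_right (Ideal.subset_span rfl)

theorem star (o : Ok Γ F) (S : Set (GaloisField p n ≃+* GaloisField p n))
    (hS : RingEquiv.refl _ ∈ S) (P : Ideal (LaurentPolynomial (E0 p n))) :
    (P.IsPrime ∧ ∀ σ ∈ S, ∀ φ g Φ, Pair F σ φ g →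
      Tw (φ : E0 p n →+* E0 p n) (PowerSeries.coeff 1 g) Φ → P.map Φ = P) ↔
    ((∃ h ≤ n, P = (heightIdeal p n h).map LaurentPolynomial.C) ∨
      ∃ (h : ℕ) (Q : Polynomial (WittVector p (GaloisField p n))), 1 ≤ h ∧ h ≤ n ∧ Fix S Q ∧
        (WittVector.constantCoeff (Q.coeff 0) ≠ 0 ∧
          Irreducible (Polynomial.expand (GaloisField p n) (if h = n then p ^ n - 1 else 1)
            (Q.map WittVector.constantCoeff))) ∧ P = vI F h Q) := by
  constructor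
  · rintro ⟨hP, hinv⟩
    have hst : ∀ σ ∈ S, ∀ φ g Φ, Pair F σ φ g →
        Tw (φ : E0 p n →+* E0 p n) (PowerSeries.coeff 1 g) Φ → ∀ y ∈ P, Φ y ∈ P :=
      fun σ hσ φ g Φ a b y hy => hinv σ hσ φ g Φ a b ▸ Ideal.mem_map_of_mem Φ hy
    have hJ := Ideal.comap_isPrime LaurentPolynomial.C P
    obtain ⟨h, hle, hh⟩ := (rad o hJ.isRadical fun φ g a x hx => by
      obtain ⟨Φ, hΦ⟩ := exists_tw (φ : E0 p n →+* E0 p n) a.1.2
      have h1 := hst _ hS φ g Φ a hΦ _ hx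
      rwa [hΦ.1] at h1).resolve_left hJ.ne_top
    rcases Nat.eq_zero_or_pos h with rfl | h0
    · refine Or.inl ⟨0, hle, ?_⟩
      rw [(zero_case o (hst _ hS) (sat_of_prime hP hh)).resolve_right hP.ne_top, heightIdeal,
        if_pos rfl, Ideal.map_bot]
    obtain ⟨A, _, _, π, κ, L⟩ := exists_lev o h0 hle
    obtain ⟨Θ, hΘ⟩ := exists_tw π isUnit_one
    obtain ⟨hker, Q, q1, q2, q3, q4⟩ := L.main o hle hΘ hS hst (sat_of_prime hP hh)
    by_cases hb : Q.map WittVector.constantCoeff = 0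
    · refine Or.inl ⟨h, hle, ?_⟩
      rw [q2, L.vI_eq hΘ, hb, map_zero, Ideal.span_singleton_zero, ← L.ker, ← hΘ.ker]
      rfl
    have hP' : (P.map Θ).IsPrime := Ideal.map_isPrime_of_surjective (hΘ.surj L.surj) hker
    obtain ⟨q5, q6⟩ := gen _ hP' q3 hb (by
      rw [N217X.ev_X, Ideal.mul_unit_mem_iff_mem _ (LaurentPolynomial.isUnit_T _), ← hΘ.1,
        ← Ideal.mem_comap, comap_map (hΘ.surj L.surj) hker, ← Ideal.mem_comap, hh, ← L.ker]
      exact L.ne)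
    exact Or.inr ⟨h, Q, h0, hle, q1,
      ⟨by rwa [Polynomial.coeff_map] at q6, L.irr _ q6 q5 (q4 ▸ hP')⟩, q2⟩
  · rintro (⟨h, hle, rfl⟩ | ⟨h, Q, h0, hle, q3, ⟨q1, q2⟩, rfl⟩)
    · refine ⟨?_, fun σ _ φ g Φ a b => by rw [b.map_map, map_I o hle a]⟩
      have hI := isPrime_heightIdeal (p := p) o.hn h hle
      obtain ⟨Θ, hΘ⟩ := exists_tw (Ideal.Quotient.mk (heightIdeal p n h)) isUnit_one
      have h1 := RingHom.ker_isPrime Θ
      rwa [hΘ.ker, Ideal.mk_ker] at h1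
    refine ⟨?_, fun σ hσ φ g Φ a b => vI_inv o h0 hle q3 hσ a b⟩
    obtain ⟨A, _, _, π, κ, L⟩ := exists_lev o h0 hle
    obtain ⟨Θ, hΘ⟩ := exists_tw π isUnit_one
    rw [L.vI_eq hΘ]
    have := L.prime _ (by rwa [Polynomial.coeff_map]) q2
    exact Ideal.comap_isPrime _ _

theorem star_rad (o : Ok Γ F) (S : Set (GaloisField p n ≃+* GaloisField p n))
    (hS : RingEquiv.refl _ ∈ S) (J : Ideal (LaurentPolynomial (E0 p n))) :
    (J.IsRadical ∧ ∀ σ ∈ S, ∀ φ g Φ, Pair F σ φ g →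
      Tw (φ : E0 p n →+* E0 p n) (PowerSeries.coeff 1 g) Φ → J.map Φ = J) ↔
    (J = ⊥ ∨ ∃ Q : ℕ → Polynomial (WittVector p (GaloisField p n)),
      (∀ h, Fix S (Q h) ∧ ((Q h).map WittVector.constantCoeff = 0 ∨
        Squarefree ((Q h).map WittVector.constantCoeff))) ∧
      J = ⨅ h ∈ Set.Icc 1 n, vI F h (Q h)) := by
  have hdom : IsDomain (E0 p n) := NoZeroDivisors.to_isDomain _
  constructor
  · rintro ⟨hr, hinv⟩
    have hN : IsNoetherianRing (LaurentPolynomial (E0 p n)) :=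
      IsLocalization.isNoetherianRing (Submonoid.powers (Polynomial.X : Polynomial (E0 p n))) _
        inferInstance
    have hfin := Ideal.finite_minimalPrimes_of_isNoetherianRing _ J
    have hmin : ∀ σ ∈ S, ∀ φ g Φ, Pair F σ φ g →
        Tw (φ : E0 p n →+* E0 p n) (PowerSeries.coeff 1 g) Φ → ∀ P ∈ J.minimalPrimes,
        P.comap Φ ∈ J.minimalPrimes ∧ (P.comap Φ).comap LaurentPolynomial.C =
          (P.comap LaurentPolynomial.C).comap (φ : E0 p n →+* E0 p n) := by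
      intro σ hσ φ g Φ a b P hP
      obtain ⟨e, he⟩ := b.equiv φ a.1.2
      refine ⟨comap_min (he ▸ e.bijective) (hinv σ hσ φ g Φ a b) hP, ?_⟩
      rw [Ideal.comap_comap, Ideal.comap_comap]
      congr 1
      exact RingHom.ext b.1
    have hI : ∀ P ∈ J.minimalPrimes, ∃ h ≤ n, P.comap LaurentPolynomial.C = heightIdeal p n h := by
      intro P hP
      have := hP.1.1
      refine fin_prime o (hfin.image (Ideal.comap LaurentPolynomial.C)) ?_ ⟨P, hP, rfl⟩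
        (Ideal.comap_isPrime _ _)
      rintro φ g a _ ⟨P', hP', rfl⟩
      obtain ⟨Φ, hΦ⟩ := exists_tw (φ : E0 p n →+* E0 p n) a.1.2
      exact ⟨_, (hmin _ hS φ g Φ a hΦ P' hP').1, (hmin _ hS φ g Φ a hΦ P' hP').2⟩
    set Jh : ℕ → Ideal (LaurentPolynomial (E0 p n)) := fun h =>
      ⨅ P ∈ {P ∈ J.minimalPrimes | P.comap LaurentPolynomial.C = heightIdeal p n h}, P with hJh
    have hmem : ∀ h y, y ∈ Jh h ↔ ∀ P ∈ J.minimalPrimes,
        P.comap LaurentPolynomial.C = heightIdeal p n h → y ∈ P := fun h y => by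
      simp only [hJh, Ideal.mem_iInf, Set.mem_ofPred_eq, and_imp]
    have hsat : ∀ h, Sat h (Jh h) := fun h =>
      ⟨fun y hy => (hmem h y).2 fun P hP h1 => (sat_of_prime hP.1.1 h1).1 hy,
        fun x y hx hy => (hmem h y).2 fun P hP h1 =>
          (sat_of_prime hP.1.1 h1).2 x y hx ((hmem h _).1 hy P hP h1)⟩
    have hst : ∀ h ≤ n, ∀ σ ∈ S, ∀ φ g Φ, Pair F σ φ g →
        Tw (φ : E0 p n →+* E0 p n) (PowerSeries.coeff 1 g) Φ → ∀ y ∈ Jh h, Φ y ∈ Jh h := by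
      intro h hle σ hσ φ g Φ a b y hy
      refine (hmem h _).2 fun P hP h1 => ?_
      obtain ⟨h2, h3⟩ := hmin σ hσ φ g Φ a b P hP
      refine (hmem h y).1 hy _ h2 ?_
      rw [h3, h1]
      conv_lhs => rw [← map_I o hle a]
      exact Ideal.comap_map_of_bijective _ φ.bijective
    have hJ : ∀ y, y ∈ J ↔ ∀ h ≤ n, y ∈ Jh h := fun y => by
      refine ⟨fun hy h _ => (hmem h y).2 fun P hP _ => hP.1.2 hy, fun H => hr ?_⟩
      rw [← Ideal.sInf_minimalPrimes, Ideal.mem_sInf]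
      intro P hP
      obtain ⟨h, hle, h1⟩ := hI P hP
      exact (hmem h y).1 (H h hle) P hP h1
    refine (zero_case o (hst 0 (Nat.zero_le n) _ hS) (hsat 0)).imp (fun h0 => ?_) fun h0 => ?_
    · rw [eq_bot_iff, ← h0]
      exact fun y hy => (hJ y).1 hy 0 (Nat.zero_le n)
    have hex : ∀ h, ∃ Q : Polynomial (WittVector p (GaloisField p n)),
        (Fix S Q ∧ (Q.map WittVector.constantCoeff = 0 ∨
          Squarefree (Q.map WittVector.constantCoeff))) ∧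
        (h ∈ Set.Icc 1 n → Jh h = vI F h Q) := by
      intro h
      by_cases hh : h ∈ Set.Icc 1 n
      swap
      · exact ⟨0, ⟨fun σ _ => by simp, Or.inl (Polynomial.map_zero _)⟩, fun h1 => absurd h1 hh⟩
      obtain ⟨A, _, _, π, κ, L⟩ := exists_lev o hh.1 hh.2
      obtain ⟨Θ, hΘ⟩ := exists_tw π isUnit_one
      obtain ⟨hker, Q, q1, q2, q3, -⟩ := L.main o hh.2 hΘ hS (hst h hh.2) (hsat h)
      refine ⟨Q, ⟨q1, (isRadical_iff_squarefree_or_zero.1 ?_).symm⟩, fun _ => q2⟩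
      rw [isRadical_iff_span_singleton, ← q3]
      refine Ideal.IsRadical.comap _ ?_
      have h1 : (Jh h).IsRadical := Ideal.isRadical_iInf _ fun P => Ideal.isRadical_iInf _
        fun hP => hP.1.1.1.isRadical
      rw [← Ideal.radical_eq_iff, ← Ideal.map_radical_of_surjective (hΘ.surj L.surj) hker,
        h1.radical]
    choose Q hQ1 hQ2 using hex
    refine ⟨Q, hQ1, ?_⟩
    ext y
    simp only [hJ, Ideal.mem_iInf]
    refine ⟨fun H h hh => hQ2 h hh ▸ H h hh.2, fun H h hle => ?_⟩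
    rcases Nat.eq_zero_or_pos h with rfl | h1
    · rw [h0]
      exact Submodule.mem_top
    · rw [hQ2 h ⟨h1, hle⟩]
      exact H h ⟨h1, hle⟩
  · rintro (rfl | ⟨Q, hQ, rfl⟩)
    · exact ⟨Ideal.isPrime_bot.isRadical, fun _ _ _ _ _ _ _ => Ideal.map_bot⟩
    refine ⟨Ideal.isRadical_iInf _ fun h => Ideal.isRadical_iInf _ fun hh => ?_,
      fun σ hσ φ g Φ a b => ?_⟩
    · obtain ⟨A, _, _, π, κ, L⟩ := exists_lev o hh.1 hh.2
      obtain ⟨Θ, hΘ⟩ := exists_tw π isUnit_one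
      rw [L.vI_eq hΘ]
      exact (rad_of_irr _ L.rad (hQ h).2).comap _
    · obtain ⟨e, rfl⟩ := b.equiv φ a.1.2
      exact map_iInf_eq e _ fun h hh => vI_inv o hh.1 hh.2 (hQ h).1 hσ a b

theorem action (o : Ok Γ F) (σ : GaloisField p n ≃+* GaloisField p n) (γ)
    (hγ : LT.IsIso (LT.base p n Γ) (LT.base p n Γ) γ) :
    ∃ (φ : E0 p n ≃+* E0 p n) (g : PowerSeries (E0 p n))
      (Φ : N217X.EStar p n ≃+* N217X.EStar p n),
      (∀ φ' g', N217X.Acts p n Γ F σ γ φ' g' ↔ φ' = φ ∧ g' = g) ∧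
      ∀ Φ', N217X.Extends p n φ g Φ' ↔ Φ' = Φ := by
  obtain ⟨φ, g, a, rfl⟩ := exists_pair o σ hγ
  obtain ⟨Φ, hΦ⟩ := exists_tw (φ : E0 p n →+* E0 p n) a.1.2
  obtain ⟨e, rfl⟩ := hΦ.equiv φ a.1.2
  refine ⟨φ, g, e, fun φ' g' => ⟨fun b => ?_, ?_⟩, fun Φ' => ⟨fun b => Tw.unique b hΦ, ?_⟩⟩
  · obtain ⟨φ'', rfl, c⟩ := pair_of_acts o b.1 b.2
    exact c.unique o a b.2.2.2
  · rintro ⟨rfl, rfl⟩
    exact a.acts o
  · rintro rfl
    exact hΦ

theorem inv_iff (J : Ideal (E0 p n)) :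
    N217X.IsInvariant p n Γ F J ↔ LT.IsInvariant p n Γ F J :=
  ⟨fun h σ γ φ ⟨a, g, b⟩ => h σ γ φ g ⟨a, b⟩, fun h σ γ φ g a => h σ γ φ ⟨a.1, g, a.2⟩⟩

theorem vIdeal_eq (h : ℕ) (Q : Polynomial (WittVector p (GaloisField p n))) :
    N217X.vIdeal p n F h Q = vI F h Q := by
  have h1 : (1 : ℤ) - (p : ℤ) ^ h = -((p ^ h - 1 : ℕ) : ℤ) := by
    rw [Nat.cast_sub (Nat.one_le_pow _ _ (Fact.out : p.Prime).pos)]
    push_cast
    ring
  rw [N217X.vIdeal, N217X.v, h1]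
  rfl

theorem star' (o : Ok Γ F) (S : Set (GaloisField p n ≃+* GaloisField p n))
    (hS : RingEquiv.refl _ ∈ S) (P : Ideal (N217X.EStar p n)) :
    ((P.IsPrime ∧ N217X.IsInvariantStar p n Γ F S P) ↔
      ((∃ h ≤ n, P = (N217X.heightIdeal p n h).map LaurentPolynomial.C) ∨
        ∃ h Q, 1 ≤ h ∧ h ≤ n ∧ N217X.FixedBy p n S Q ∧ N217X.Irred p n h Q ∧
          P = N217X.vIdeal p n F h Q)) ∧
    ((P.IsRadical ∧ N217X.IsInvariantStar p n Γ F S P) ↔
      (P = ⊥ ∨ ∃ Q : ℕ → Polynomial (WittVector p (GaloisField p n)),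
        (∀ h, N217X.FixedBy p n S (Q h) ∧
          (N217X.bar p n (Q h) = 0 ∨ Squarefree (N217X.bar p n (Q h)))) ∧
        P = ⨅ h ∈ Set.Icc 1 n, N217X.vIdeal p n F h (Q h))) := by
  have h1 : N217X.IsInvariantStar p n Γ F S P ↔ ∀ σ ∈ S, ∀ φ g Φ, Pair F σ φ g →
      Tw (φ : E0 p n →+* E0 p n) (PowerSeries.coeff 1 g) Φ → P.map Φ = P := by
    refine ⟨fun H σ hσ φ g Φ a b => H σ hσ _ _ g Φ (a.acts o) b, fun H σ hσ γ φ g Φ a b => ?_⟩
    obtain ⟨φ', rfl, c⟩ := pair_of_acts o a.1 a.2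
    exact H σ hσ φ' g Φ c b
  simp only [h1, vIdeal_eq, N217X.Irred, N217X.bar, Polynomial.coeff_map]
  exact ⟨star o S hS P, star_rad o S hS P⟩

end Vale.Agent.N217Y
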